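import Vale.Agent.P092RL.Defs
import Vale.Agent.P092RS.Main
import Vale.Agent.P092CP.L2
import Vale.Agent.P092EN.Cp

/-!
P092, rank one, block LEV (helper26): sums over cells.
-/

set_option linter.all false

open scoped InnerProductSpace ENNReal NNReal
open Filter Topology MeasureTheory ContinuousLinearMap

namespace Vale.Agent.P092RL

open Vale.Agent.P092.H793.Re Vale.Agent.P092RG Vale.Agent.P092CP Vale.Agent.P092RS
open Vale.Agent.P092.RC (Cm)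
open Vale.Agent.P092EN (Cov Ucp)

variable {G G' K : Type} [Group G] [TopologicalSpace G] [IsTopologicalGroup G]
  [LocallyCompactSpace G] [SecondCountableTopology G] [T2Space G] [MeasurableSpace G]
  [BorelSpace G] [Group G'] [TopologicalSpace G'] [IsTopologicalGroup G']
  [LocallyCompactSpace G'] [SecondCountableTopology G'] [T2Space G'] [MeasurableSpace G']
  [BorelSpace G'] [NormedAddCommGroup K] [InnerProductSpace ℂ K] [CompleteSpace K]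
  {μ : Measure G} {μ' : Measure G'} [μ.IsHaarMeasure] [μ'.IsHaarMeasure] {W : Set (K →L[ℂ] K)}

theorem cont_ap (S : Side μ W) {X : Type*} [TopologicalSpace X] {g : X → G} {ξ : X → K}
    (hg : Continuous g) (hξ : Continuous ξ) : Continuous fun x => S.π (g x) (ξ x) := by
  refine continuous_iff_continuousAt.2 fun x₀ => ?_
  have h1 : Tendsto (fun x => S.π (g x) (ξ x - ξ x₀)) (𝓝 x₀) (𝓝 0) := by
    rw [tendsto_zero_iff_norm_tendsto_zero]
    simp only [S.norm_π]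
    exact tendsto_iff_norm_sub_tendsto_zero.1 hξ.continuousAt
  have h2 := h1.add (((S.cont (ξ x₀)).comp hg).tendsto x₀)
  rw [zero_add] at h2
  exact h2.congr fun x => by simp

theorem Tr_mul_P (C : Cpl μ μ' W) {X : K →L[ℂ] K} (hX : Cm W X) {E : Set G'}
    (hE : MeasurableSet E) : C.t.Tr (X * C.t.P E) = C.t.Tr (C.t.P E * adjoint X) := by
  rw [← C.tr_adj _ (cm_mul hX (C.t.cm_P hE)), ← star_eq_adjoint, star_mul, star_eq_adjoint,
    star_eq_adjoint, C.t.adjoint_P hE]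

/-- the trace of `X P_E` is the mean of the traces over the windows `x B` -/
theorem Tr_win (C : Cpl μ μ' W) {X : K →L[ℂ] K} (hX : Cm W X) {E B : Set G'}
    (hE : MeasurableSet E) (hB : MeasurableSet B) :
    μ' B * C.t.Tr (X * C.t.P E) =
      ∫⁻ x, C.t.Tr (X * C.t.P ((fun y => x⁻¹ * y) ⁻¹' B ∩ E)) ∂μ' := by
  have := C.t.inv
  have hm : ∀ x : G', MeasurableSet ((fun y => x⁻¹ * y) ⁻¹' B) := fun x =>
    measurable_const_mul _ hB
  have h1 : ∀ x g, ‖(C.t.P ((fun y => x⁻¹ * y) ⁻¹' B ∩ E) * adjoint X) (C.t.π g C.t.Ω)‖ₑ =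
      ‖C.t.P B (C.t.π x⁻¹ ((C.t.P E * adjoint X) (C.t.π g C.t.Ω)))‖ₑ := fun x g => by
    have e : C.t.P ((fun y => x⁻¹ * y) ⁻¹' B) = C.t.π x * C.t.P B * C.t.π x⁻¹ := by
      rw [C.t.π_P hB, mul_assoc, pi_mul_inv, mul_one]
    rw [← C.t.P_mul (hm x) hE, e, ← ofReal_norm, ← ofReal_norm]
    congr 1
    exact C.t.norm_π x _
  simp only [fun x => Tr_mul_P C hX ((hm x).inter hE), Tr_mul_P C hX hE]
  simp only [Side.Tr, h1]
  have hc : Continuous fun q : G' × G' =>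
      C.t.P B (C.t.π q.1⁻¹ ((C.t.P E * adjoint X) (C.t.π q.2 C.t.Ω))) :=
    (C.t.P B).continuous.comp (cont_ap C.t continuous_fst.inv
      ((C.t.P E * adjoint X).continuous.comp ((C.t.cont _).comp continuous_snd)))
  rw [lintegral_lintegral_swap (hc.enorm.measurable.pow_const 2).aemeasurable,
    ← lintegral_const_mul _ (C.t.meas_π _ _)]
  refine lintegral_congr fun g => ?_
  rw [← C.t.lint_P hB, ← lintegral_inv_eq_self]

section cells

variable {ι : Type} [Fintype ι] {e : G' → ι}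

theorem P_cells (S : Side μ' W) (he : ∀ c, MeasurableSet {y | e y = c}) :
    ∑ c, S.P {y | e y = c} = 1 := by
  simp only [Side.P]
  rw [← S.m_sum _ fun c _ => Bd.ind (he c), ← S.m_one]
  congr 1
  funext y
  classical
  simp [Set.indicator_apply]

/-- the sum over the cells -/
noncomputable def Sm (S : Side μ' W) (e : G' → ι) (X : ι → (K →L[ℂ] K)) : K →L[ℂ] K :=
  ∑ c, X c * S.P {y | e y = c}

theorem cm_Sm (S : Side μ' W) (he : ∀ c, MeasurableSet {y | e y = c}) {X : ι → (K →L[ℂ] K)}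
    (hX : ∀ c, Cm W (X c)) : Cm W (Sm S e X) :=
  cm_sum _ fun c _ => cm_mul (hX c) (S.cm_P (he c))

theorem Sm_mul_P (S : Side μ' W) (he : ∀ c, MeasurableSet {y | e y = c}) (X : ι → (K →L[ℂ] K))
    {E : Set G'} (hE : MeasurableSet E) {c : ι} (h : ∀ y ∈ E, e y = c) :
    Sm S e X * S.P E = X c * S.P E := by
  rw [Sm, Finset.sum_mul, Finset.sum_eq_single c]
  · rw [mul_assoc, S.P_mul (he c) hE,
      (Set.inter_eq_right.2 fun y hy => h y hy : {y | e y = c} ∩ E = E)]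
  · intro b _ hb
    have : {y | e y = b} ∩ E = ∅ := Set.eq_empty_of_forall_notMem fun y hy =>
      hb (hy.1.symm.trans (h y hy.2))
    rw [mul_assoc, S.P_mul (he b) hE, this, S.P_empty, mul_zero]
  · exact fun h0 => absurd (Finset.mem_univ c) h0

theorem Tr_cells (C : Cpl μ μ' W) (he : ∀ c, MeasurableSet {y | e y = c}) {X : K →L[ℂ] K}
    (hX : Cm W X) {E : Set G'} (hE : MeasurableSet E) :
    C.t.Tr (X * C.t.P E) = ∑ c, C.t.Tr (X * C.t.P ({y | e y = c} ∩ E)) := by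
  rw [Tr_mul_P C hX hE, C.t.Tr_tsum_P he fun y => ⟨e y, rfl, fun c hc => hc.symm⟩, tsum_fintype]
  refine Finset.sum_congr rfl fun c _ => ?_
  rw [Tr_mul_P C hX ((he c).inter hE), ← mul_assoc, C.t.P_mul (he c) hE]

variable {Y : Type} [TopologicalSpace Y] [CompactSpace Y]

theorem norm_Sm_le (S : Side μ' W) (he : ∀ c, MeasurableSet {y | e y = c})
    {Φ : C(Y, ℂ) →ₗ[ℂ] (K →L[ℂ] K)} (hΦ : Ucp Φ) {φ : ι → C(Y, ℂ)} {a : ℝ} (ha : 0 ≤ a)
    (h : ∀ η, ∑ c, ‖φ c η‖ ^ 2 ≤ a ^ 2) : ‖Sm S e fun c => Φ (φ c)‖ ≤ a := by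
  have h1 : ∀ ζ : K, ∑ c, ‖Φ (star (φ c)) ζ‖ ^ 2 ≤ (a * ‖ζ‖) ^ 2 := fun ζ => by
    let g : C(Y, ℂ) := ⟨fun y => ((Real.sqrt (∑ c, ‖φ c y‖ ^ 2) : ℝ) : ℂ), by fun_prop⟩
    have hg : ‖g‖ ≤ a := (ContinuousMap.norm_le _ ha).2 fun y => by
      change ‖((Real.sqrt (∑ c, ‖φ c y‖ ^ 2) : ℝ) : ℂ)‖ ≤ a
      rw [Complex.norm_real, Real.norm_of_nonneg (Real.sqrt_nonneg _)]
      exact Real.sqrt_le_iff.2 ⟨ha, h y⟩
    have e1 : star g * g = ∑ c, star (star (φ c)) * star (φ c) := by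
      ext y
      change star ((Real.sqrt (∑ c, ‖φ c y‖ ^ 2) : ℝ) : ℂ) *
        ((Real.sqrt (∑ c, ‖φ c y‖ ^ 2) : ℝ) : ℂ) = _
      rw [Complex.star_def, Complex.conj_ofReal, ← Complex.ofReal_mul,
        Real.mul_self_sqrt (Finset.sum_nonneg fun _ _ => sq_nonneg _), ContinuousMap.sum_apply]
      push_cast
      refine Finset.sum_congr rfl fun c _ => ?_
      rw [star_star]
      exact (Complex.mul_conj' (φ c y)).symm
    calc ∑ c, ‖Φ (star (φ c)) ζ‖ ^ 2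
        ≤ ∑ c, (⟪ζ, Φ (star (star (φ c)) * star (φ c)) ζ⟫_ℂ).re :=
          Finset.sum_le_sum fun c _ => hΦ.ks _ ζ
      _ = (⟪ζ, Φ (star g * g) ζ⟫_ℂ).re := by
          rw [e1, map_sum, ContinuousLinearMap.sum_apply, inner_sum, Complex.re_sum]
      _ ≤ ‖g‖ ^ 2 * (⟪ζ, Φ 1 ζ⟫_ℂ).re := hΦ.toCp.mono g ζ
      _ ≤ ‖g‖ ^ 2 * ‖ζ‖ ^ 2 := mul_le_mul_of_nonneg_left (hΦ.le_one ζ) (sq_nonneg _)
      _ ≤ (a * ‖ζ‖) ^ 2 := by rw [mul_pow]; gcongr
  have h2 : ∀ ξ : K, ∑ c, ‖S.P {y | e y = c} ξ‖ ^ 2 = ‖ξ‖ ^ 2 := fun ξ => by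
    have h3 : ∀ c, ‖S.P {y | e y = c} ξ‖ ^ 2 = (⟪ξ, S.P {y | e y = c} ξ⟫_ℂ).re := fun c => by
      rw [← P092EN.re_self, ← adjoint_inner_right, S.adjoint_P (he c), ← mul_ap, S.P_sq (he c)]
    simp only [h3]
    rw [← Complex.re_sum, ← inner_sum, ← ContinuousLinearMap.sum_apply, P_cells S he]
    exact P092EN.re_self ξ
  refine opNorm_le_bound _ ha fun ξ => ?_
  obtain ⟨ζ, hζ⟩ : ∃ ζ, ζ = Sm S e (fun c => Φ (φ c)) ξ := ⟨_, rfl⟩
  rw [← hζ]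
  have h4 : ‖ζ‖ ^ 2 ≤ ∑ c, ‖Φ (star (φ c)) ζ‖ * ‖S.P {y | e y = c} ξ‖ := by
    rw [← P092EN.re_self]
    nth_rewrite 2 [hζ]
    rw [Sm, ContinuousLinearMap.sum_apply, inner_sum, Complex.re_sum]
    refine Finset.sum_le_sum fun c _ => ?_
    rw [mul_ap, ← adjoint_inner_left, hΦ.adj]
    exact (Complex.re_le_norm _).trans (norm_inner_le_norm _ _)
  have h5 := Finset.sum_mul_sq_le_sq_mul_sq Finset.univ (fun c => ‖Φ (star (φ c)) ζ‖)
    fun c => ‖S.P {y | e y = c} ξ‖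
  rw [h2] at h5
  have h6 : (‖ζ‖ ^ 2) ^ 2 ≤ (a * ‖ζ‖) ^ 2 * ‖ξ‖ ^ 2 :=
    (pow_le_pow_left₀ (sq_nonneg _) h4 2).trans
      (h5.trans (mul_le_mul_of_nonneg_right (h1 ζ) (sq_nonneg _)))
  rcases (norm_nonneg ζ).eq_or_lt with h0 | h0
  · rw [← h0]; positivity
  · refine le_of_sq_le_sq (le_of_mul_le_mul_left (a := ‖ζ‖ ^ 2) ?_ (by positivity)) (by positivity)
    nlinarith

end cells

theorem exists_Z (C : Cpl μ μ' W) {A : Type} [NormedAddCommGroup A] [NormedSpace ℂ A]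
    (D : A →ₗ[ℂ] (K →L[ℂ] K)) (hD : ∀ g, Cm W (D g)) {c : ℝ} (hc : ∀ g, ‖D g‖ ≤ c * ‖g‖)
    {E : Set G'} (hE : MeasurableSet E) (h0 : μ' E ≠ ∞) :
    ∃ Z : A →L[ℂ] C.t.LB, ∀ g, ‖Z g‖ₑ ^ 2 = C.t.Tr (D g * C.t.P E) := by
  have h1 : ∀ g, C.t.Tr (D g * C.t.P E) ≤ ‖D g‖ₑ ^ 2 * μ' E := fun g => by
    rw [← C.t.Tr_P hE]; exact C.t.Tr_mul_le _ _
  have h2 : ∀ g, D g * C.t.P E ∈ C.t.HS := fun g =>
    ⟨cm_mul (hD g) (C.t.cm_P hE), ne_top_of_le_ne_top (by finiteness) (h1 g)⟩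
  let L : A →ₗ[ℂ] C.t.LB :=
    { toFun := fun g => C.t.vB (D g * C.t.P E)
      map_add' := fun g g' => by rw [map_add, add_mul, C.t.gnsB.add _ (h2 g) _ (h2 g')]
      map_smul' := fun z g => by rw [map_smul, smul_mul_assoc, C.t.gnsB.smul z _ (h2 g)]; rfl }
  refine ⟨L.mkContinuous (|c| * Real.sqrt (μ' E).toReal) fun g => ?_,
    fun g => C.t.enorm_vB (h2 g)⟩
  refine le_of_sq_le_sq ?_ (by positivity)
  change ‖C.t.vB (D g * C.t.P E)‖ ^ 2 ≤ _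
  rw [C.t.norm_vB (h2 g)]
  refine (ENNReal.toReal_mono (by finiteness) (h1 g)).trans ?_
  rw [ENNReal.toReal_mul, ENNReal.toReal_pow, toReal_enorm, mul_pow, mul_pow,
    Real.sq_sqrt ENNReal.toReal_nonneg, mul_right_comm, ← mul_pow]
  gcongr
  exact (hc g).trans (mul_le_mul_of_nonneg_right (le_abs_self c) (norm_nonneg g))

end Vale.Agent.P092RL
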