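import Vale.Agent.P092RS.Defs

/-!
P092, rank one, block LEV (helper26): finite energy in the form of walls, cells.
-/

set_option linter.all false

open scoped InnerProductSpace ENNReal NNReal
open Filter Topology MeasureTheory ContinuousLinearMap

namespace Vale.Agent.P092RL

open Vale.Agent.P092.H793.Re Vale.Agent.P092RG Vale.Agent.P092CP Vale.Agent.P092RS
open Vale.Agent.P092.RC (Cm)
open Vale.Agent.P092EN (Cov Ucp)

variable {n n' : ℕ} {G G' K : Type} [Group G] [TopologicalSpace G] [MeasurableSpace G] [Group G']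
  [TopologicalSpace G'] [MeasurableSpace G'] [NormedAddCommGroup K] [InnerProductSpace ℂ K]
  [CompleteSpace K] {ρ : G →* SLn n} {w : Fin n → ℝ} {ρ' : G' →* SLn n'} {w' : Fin n' → ℝ}
  {μ : Measure G} {μ' : Measure G'} {W : Set (K →L[ℂ] K)}

/-- **Finite energy in the form of walls**: `T` is the family of the tests seen from the origin. -/
def FEw (h : R1 ρ w) (h' : R1 ρ' w') (C : Cpl μ μ' W) {Ξ : Type} [MeasurableSpace Ξ]
    (m : Measure Ξ) (T : Ξ → C(h'.Y, ℂ)) : Prop :=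
  ∃ Φ : C(h'.Y, ℂ) →ₗ[ℂ] (K →L[ℂ] K), Ucp Φ ∧ (∀ f, Cm W (Φ f)) ∧ Cov C.t.π Φ ∧
    ∫⁻ v in ball h 1, ∫⁻ ξ,
      C.t.Tr ((ad C.s.π v (Φ (T ξ)) - Φ (T ξ)) * C.t.P (ball h' 1)) ∂m ∂μ ≠ ∞

/-- `g ∘ x` -/
noncomputable def tr (h' : R1 ρ' w') (x : G') (g : C(h'.Y, ℂ)) : C(h'.Y, ℂ) :=
  g.comp ⟨fun η => x • η, continuous_const_smul x⟩

/-- **Cells**: the level `j` approximation of `f` seen from the position `y` is `φ j (e j y)`. -/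
structure Cells (h' : R1 ρ' w') {Ξ : Type} [MeasurableSpace Ξ] (m : Measure Ξ)
    (T : Ξ → C(h'.Y, ℂ)) (fr : Ξ → G') (f : C(h'.Y, ℂ)) (a c₀ : ℝ) where
  /-- the number of cells -/
  N : ℕ → ℕ
  /-- the cell of a position -/
  e : ∀ j, G' → Fin (N j)
  /-- the function of a cell -/
  φ : ∀ j, Fin (N j) → C(h'.Y, ℂ)
  me : ∀ j c, MeasurableSet {y | e j y = c}
  zero : ∀ c, ∃ z : ℂ, φ 0 c = f + z • 1
  op : ∀ (j : ℕ) η, ∑ c, ‖φ j c η‖ ^ 2 ≤ Real.exp (a - j) ^ 2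
  dom : ∀ (i : ℕ) x y, h'.rr (x⁻¹ * y) ≤ 1 → ∀ (H : Type) [NormedAddCommGroup H]
    [InnerProductSpace ℂ H] [CompleteSpace H] (Z : C(h'.Y, ℂ) →L[ℂ] H), Z 1 = 0 →
    ‖Z (tr h' x (φ i (e i y) - φ (i + 1) (e (i + 1) y)))‖ₑ ^ 2 ≤
      eo (a - 2 * i) * ∫⁻ ξ in {ξ | h'.rr (x * fr ξ) ≤ i + c₀}, ‖Z (T ξ)‖ₑ ^ 2 ∂m

/-- a family with dense span has cells -/
def Walls (h' : R1 ρ' w') {Ξ : Type} [MeasurableSpace Ξ] (m : Measure Ξ) (T : Ξ → C(h'.Y, ℂ))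
    (fr : Ξ → G') : Prop :=
  ∃ F : Set C(h'.Y, ℂ), Dense (Submodule.span ℂ F : Set C(h'.Y, ℂ)) ∧
    ∀ f ∈ F, ∃ a c₀ : ℝ, Nonempty (Cells h' m T fr f a c₀)

end Vale.Agent.P092RL
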