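import Vale.Agent.P092RL.Net
import Vale.Agent.P092RL.Defs
import Vale.Agent.P092RO.Defs

/-!
P092, rank one (helper26): the walls control the cells.
-/

set_option linter.all false

open MeasureTheory Filter Topology
open scoped InnerProductSpace ContDiff ENNReal

namespace Vale.Agent.P092RL

open Vale.Agent.P092.H793.Re Vale.Agent.P092RG Vale.Agent.P092RA Vale.Agent.P092RO

variable {n : ℕ} {G : Type} [Group G] [TopologicalSpace G]
variable {ρ : G →* SLn n} {w : Fin n → ℝ} (h : R1 ρ w)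
include h

theorem dense_em : Dense (Submodule.span ℂ (Set.range (em (du h))) : Set C(h.Y, ℂ)) := by
  let A : StarSubalgebra ℂ C(h.Y, ℂ) :=
    { toSubalgebra := Algebra.adjoin ℂ (Set.range (em (du h)))
      star_mem' := by
        change Algebra.adjoin ℂ (Set.range (em (du h))) ≤
          star (Algebra.adjoin ℂ (Set.range (em (du h))))
        refine Algebra.adjoin_le ?_
        rintro - ⟨η, rfl⟩
        refine Algebra.subset_adjoin ⟨-η, ContinuousMap.ext fun ξ => ?_⟩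
        show ee _ = starRingEnd ℂ (ee _)
        unfold ee
        rw [← Complex.exp_conj, map_mul, Complex.conj_ofReal, Complex.conj_I, inner_neg_left]
        congr 1
        push_cast
        ring }
  have h1 : Subalgebra.toSubmodule A.toSubalgebra = Submodule.span ℂ (Set.range (em (du h))) := by
    refine Algebra.adjoin_eq_span_of_subset ℂ (Set.Subset.trans ?_ Submodule.subset_span)
    intro x hx
    refine Submonoid.closure_induction (fun _ => id) ⟨0, ContinuousMap.ext fun ξ => ?_⟩ ?_ hx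
    · rw [em_apply, inner_zero_left, ee_zero]; rfl
    · rintro - - - - ⟨η, rfl⟩ ⟨η', rfl⟩
      refine ⟨η + η', ContinuousMap.ext fun ξ => ?_⟩
      rw [em_apply, inner_add_left, ee_add]; rfl
  have h2 : A.SeparatesPoints := fun ξ ξ' hne => by
    have h3 : du h ξ - du h ξ' ≠ 0 := sub_ne_zero.2 fun e => hne (du_inj h e)
    have h4 : ‖du h ξ - du h ξ'‖ ≠ 0 := norm_ne_zero_iff.2 h3
    refine ⟨_, ⟨em (du h) ((2 * ‖du h ξ - du h ξ'‖ ^ 2)⁻¹ • (du h ξ - du h ξ')),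
      Algebra.subset_adjoin ⟨_, rfl⟩, rfl⟩, fun e => ?_⟩
    generalize hη : (2 * ‖du h ξ - du h ξ'‖ ^ 2)⁻¹ • (du h ξ - du h ξ') = η at e
    have h5 : ⟪η, du h ξ⟫_ℝ = ⟪η, du h ξ'⟫_ℝ + 1 / 2 := by
      rw [← sub_eq_iff_eq_add', ← inner_sub_right, ← hη, real_inner_smul_left,
        real_inner_self_eq_norm_sq]
      field_simp
    have h6 : ee (1 / 2) = -1 := by
      unfold ee
      rw [show 2 * Real.pi * (1 / 2) = Real.pi by ring, Complex.exp_pi_mul_I]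
    have e' : ee ⟪η, du h ξ⟫_ℝ = ee ⟪η, du h ξ'⟫_ℝ := e
    rw [h5, ee_add, h6] at e'
    have h7 : ee ⟪η, du h ξ'⟫_ℝ = 0 := by linear_combination (-1 / 2 : ℂ) * e'
    have := norm_ee ⟪η, du h ξ'⟫_ℝ
    rw [h7, norm_zero] at this
    exact zero_ne_one this
  have h3 := ContinuousMap.starSubalgebra_topologicalClosure_eq_top_of_separatesPoints A h2
  rw [← h1, dense_iff_closure_eq]
  exact congrArg (fun B : StarSubalgebra ℂ C(h.Y, ℂ) => (B : Set C(h.Y, ℂ))) h3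

theorem act_zero (v : G) (f : C(h.Y, ℂ)) (ξ : h.Y) : act h 0 v f ξ = f (v⁻¹ • ξ) := by
  rw [act_apply, zero_mul, neg_zero, Real.exp_zero, Complex.ofReal_one, one_mul]

theorem cells_of [MeasurableSpace G] {Ξ : Type} [MeasurableSpace Ξ] {m : Measure Ξ}
    {T : Ξ → C(h.Y, ℂ)} {fr : Ξ → G} {f : C(h.Y, ℂ)} {a c₀ : ℝ} (ι : ℕ → Type)
    [∀ j, Fintype (ι j)] (e : ∀ j, G → ι j) (φ : ∀ j, ι j → C(h.Y, ℂ))
    (me : ∀ j c, MeasurableSet {y | e j y = c}) (zero : ∀ c, ∃ z : ℂ, φ 0 c = f + z • 1)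
    (op : ∀ (j : ℕ) η, ∑ c, ‖φ j c η‖ ^ 2 ≤ Real.exp (a - j) ^ 2)
    (dom : ∀ (i : ℕ) x y, h.rr (x⁻¹ * y) ≤ 1 → ∀ (H : Type) [NormedAddCommGroup H]
      [InnerProductSpace ℂ H] [CompleteSpace H] (Z : C(h.Y, ℂ) →L[ℂ] H), Z 1 = 0 →
      ‖Z (tr h x (φ i (e i y) - φ (i + 1) (e (i + 1) y)))‖ₑ ^ 2 ≤
        eo (a - 2 * i) * ∫⁻ ξ in {ξ | h.rr (x * fr ξ) ≤ i + c₀}, ‖Z (T ξ)‖ₑ ^ 2 ∂m) :
    Nonempty (Cells h m T fr f a c₀) :=
  ⟨{ N := fun j => Fintype.card (ι j)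
     e := fun j y => Fintype.equivFin (ι j) (e j y)
     φ := fun j c => φ j ((Fintype.equivFin (ι j)).symm c)
     me := fun j c => by simpa only [Equiv.apply_eq_iff_eq_symm_apply] using me j _
     zero := fun c => zero _
     op := fun j η => ((Fintype.equivFin (ι j)).symm.sum_comp
       fun c => ‖φ j c η‖ ^ 2).trans_le (op j η)
     dom := fun i x y => by simpa only [Equiv.symm_apply_apply] using dom i x y }⟩

variable [IsTopologicalGroup G] [SecondCountableTopology G] [MeasurableSpace G] [BorelSpace G]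
  [LocallyCompactSpace G] [T2Space G] (μ : Measure G) [μ.IsHaarMeasure]

theorem bb_le {H : Type} [NormedAddCommGroup H] [NormedSpace ℂ H] [CompleteSpace H]
    (Z : C(h.Y, ℂ) →L[ℂ] H) (x u : G) (R : ℝ) :
    ENNReal.ofReal (bb h μ 0 (SN.of Z) (x⁻¹ * u) R ^ 2) ≤
      ∫⁻ ξ in {ξ : G × EE n | h.rr (x * ξ.1) ≤ h.rr u + R}, ‖Z (TW h 0 ξ)‖ₑ ^ 2 ∂mm h μ := by
  have e : (mm h μ).restrict {ξ : G × EE n | h.rr (x * ξ.1) ≤ h.rr u + R} =
      mm h (μ.restrict {v | h.rr (x * v) ≤ h.rr u + R}) := by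
    rw [mm, mm, Measure.restrict_prod_eq_prod_univ, Set.prod_univ]
    rfl
  simp only [en_sq]
  rw [e, bb, Real.sq_sqrt (integral_nonneg fun v => qw_nonneg h _ _ _),
    ofReal_integral_eq_lintegral_ofReal (intOn_qw h μ 0 _ (isCompact_near h _ R))
      (Eventually.of_forall fun v => qw_nonneg h _ _ _)]
  refine le_trans (lintegral_mono_set fun v hv => ?_) (lintegral_mm h _ 0 (SN.of Z)).ge
  have h1 := h.rr_mul_le u ((x⁻¹ * u)⁻¹ * v)
  rw [mul_inv_rev, inv_inv, mul_assoc, mul_inv_cancel_left] at h1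
  have h2 : h.rr ((x⁻¹ * u)⁻¹ * v) ≤ R := hv
  rw [mul_inv_rev, inv_inv, mul_assoc] at h2
  show h.rr (x * v) ≤ _
  linarith

theorem cells (η₀ : EE n) :
    ∃ a c₀ : ℝ, Nonempty (Cells h (mm h μ) (TW h 0) Prod.fst (em (du h) η₀) a c₀) := by
  classical
  obtain ⟨L, hL, hin⟩ := in_shadow h
  obtain ⟨C₀, hout⟩ := out_shadow h
  obtain ⟨τ, hτ, htri⟩ := dv_tri' h
  obtain ⟨R₀, hR₀⟩ := near_K h (Real.exp (2 * τ))
  obtain ⟨A, hA0, hA⟩ := pack h L hL.le
  have hl : 0 < L * h.lam := mul_pos hL h.lam_pos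
  have tA := tame_cA h hl η₀
  generalize hf : em (du h) η₀ = f at tA
  have hf1 : ∀ ξ, ‖f ξ‖ ≤ 1 := fun ξ => hf ▸ (norm_ee _).le
  obtain ⟨B, hB0, hB⟩ := tA.bdd
  choose S hS hc using fun j : ℕ => net h j (Nat.cast_nonneg j)
  choose kk hk hkk using h.exists_K
  have ps1 : ∀ (u : G) (ζ : h.Y), -L ≤ bo h u ζ → ps (L * h.lam) (be h u ζ) = 1 :=
    fun u ζ e => ps_one hl (Real.exp_le_exp.2 (by nlinarith [h.lam_pos]))
  obtain ⟨C, R, hC, hW⟩ := wall h μ (I := (h.K × ℕ) × (h.K × ℕ) × {d : G // h.rr d ≤ |R₀|} ×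
      {ε : ℂ // ‖ε‖ ≤ 1} × {z : ℂ // ‖z‖ ≤ B})
    (F := fun q => cA h (L * h.lam) f q.1.1 q.1.2 - q.2.2.2.1.1 •
      act h 0 q.2.2.1.1 (cA h (L * h.lam) f q.2.1.1 q.2.1.2) - q.2.2.2.2.1 • 1)
    ((((tA.re Prod.fst).sub' ((Tame.cstC fun q => q.2.2.2.1.2).mul (Tame.act (T := 0)
      (t := fun _ => 0) (tA.re fun q => q.2.1) (fun q => q.2.2.1.2) fun _ => abs_zero.le))).sub'
      (Tame.cstC fun q => q.2.2.2.2.2)).congr fun q ξ => by
        simp only [ContinuousMap.sub_apply, ContinuousMap.smul_apply, ContinuousMap.one_apply,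
          smul_eq_mul, mul_one]) C₀
  choose e me he using fun j : ℕ => exists_sel (α := G) (ι := Option (S j))
    (fun y c => c.elim (h.rr y < j) fun c => (j : ℝ) ≤ h.rr y ∧
      h.dv c.1 (h.pd y) ≤ Real.exp (-(2 * (j : ℝ))))
    (fun c => by
      cases c with
      | none => exact measurableSet_lt h.measurable_rr measurable_const
      | some c => exact (measurableSet_le measurable_const h.measurable_rr).inter
                    (h.measurable_pd (meas_dv h c.1 _)))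
    fun y => by
      by_cases hy : h.rr y < j
      · exact ⟨none, hy⟩
      · obtain ⟨c, hc, e⟩ := hc j (h.pd y)
        exact ⟨some ⟨c, hc⟩, not_lt.1 hy, e⟩
  let φ : ∀ j : ℕ, Option (S j) → C(h.Y, ℂ) := fun j c => c.elim (if j = 0 then f else 0) fun c =>
    (Real.exp (-(j : ℝ)) : ℂ) • act h 0 (kk c * h.a j) (cA h (L * h.lam) f (kk c) j)
  have ha : ∀ x y : ℝ, 0 ≤ y → x ≤ Real.exp (x + y) := fun x y hy =>
    (by linarith [Real.add_one_le_exp x] : x ≤ Real.exp x).trans (Real.exp_le_exp.2 (by linarith))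
  refine ⟨1 + A * B ^ 2 + C ^ 2, R, cells_of h (fun j => Option (S j)) e φ me ?_ ?_ ?_⟩
  · rintro (_ | c)
    · exact ⟨0, by rw [zero_smul, add_zero]; rfl⟩
    · refine ⟨-f (kk c : h.Y), ContinuousMap.ext fun ξ => ?_⟩
      have h1 : kk c * h.a ((0 : ℕ) : ℝ) ∈ h.K := by
        rw [Nat.cast_zero, h.a_zero, mul_one]; exact hk c
      show (Real.exp (-((0 : ℕ) : ℝ)) : ℂ) * act h 0 _ _ ξ = f ξ + -f _ * 1
      rw [act_zero, cA_apply, smul_inv_smul, ps1 _ _ (by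
        unfold bo; rw [h.co_of_K h1, h.rr_K h1]; linarith)]
      simp [sub_eq_add_neg]
  · intro j η
    rw [Fintype.sum_option]
    have h1 : ‖φ j none η‖ ^ 2 ≤ Real.exp (-(j : ℝ)) ^ 2 := by
      refine pow_le_pow_left₀ (norm_nonneg _) ?_ 2
      show ‖(if j = 0 then f else 0) η‖ ≤ _
      split_ifs with hj
      · rw [hj, Nat.cast_zero, neg_zero, Real.exp_zero]; exact hf1 η
      · rw [ContinuousMap.zero_apply, norm_zero]; exact (Real.exp_pos _).le
    have h2 : ∀ c : S j, ‖φ j (some c) η‖ ^ 2 ≤ if h.dv η c ≤ Real.exp (-(2 * (j - L))) then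
        (Real.exp (-(j : ℝ)) * B) ^ 2 else 0 := fun c => by
      show ‖(Real.exp (-(j : ℝ)) : ℂ) * act h 0 _ _ η‖ ^ 2 ≤ _
      rw [act_zero]
      split_ifs with hd
      · rw [norm_mul, Complex.norm_real, Real.norm_eq_abs, abs_of_pos (Real.exp_pos _)]
        exact pow_le_pow_left₀ (by positivity) (mul_le_mul_of_nonneg_left
          (hB (⟨kk c, hk c⟩, j) _) (Real.exp_pos _).le) 2
      · rw [cA_apply, ps_zero hl]
        · simp
        by_contra h3
        have h4 := Real.exp_lt_exp.1 (not_le.1 h3)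
        have h5 : -(2 * L) < bo h (kk c * h.a j) ((kk c * h.a j)⁻¹ • η) := by
          by_contra h6
          nlinarith [h.lam_pos, not_lt.1 h6]
        refine hd ?_
        rcases Nat.eq_zero_or_pos j with hj | hj
        · refine (h.dv_le_one _ _).trans (Real.one_le_exp ?_)
          rw [hj, Nat.cast_zero]
          linarith
        have h6 := dv_pd_bo h (kk c * h.a j) ((kk c * h.a j)⁻¹ • η)
        have h7 := h.pd_kak (hk c) h.K.one_mem (Nat.cast_pos (α := ℝ).2 hj)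
        rw [mul_one] at h7
        rw [smul_inv_smul, h7, hkk, h.rr_K_mul (hk c), h.rr_a, abs_of_nonneg (Nat.cast_nonneg j),
          ← Real.exp_add, h.dv_comm] at h6
        exact h6.trans (Real.exp_le_exp.2 (by linarith))
    have h3 := Finset.sum_le_sum (s := Finset.univ) fun c _ => h2 c
    rw [Finset.sum_coe_sort (S j) fun c => if h.dv η c ≤ Real.exp (-(2 * (j - L))) then
      (Real.exp (-(j : ℝ)) * B) ^ 2 else 0, ← Finset.sum_filter, Finset.sum_const,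
      nsmul_eq_mul] at h3
    have h4 := hA j (Nat.cast_nonneg j) ((S j).filter fun c =>
      h.dv η c ≤ Real.exp (-(2 * (j - L)))) η (fun y hy y' hy' =>
        hS j y (Finset.mem_filter.1 hy).1 y' (Finset.mem_filter.1 hy').1)
      fun y hy => (Finset.mem_filter.1 hy).2
    have h5 := mul_le_mul_of_nonneg_right h4 (sq_nonneg (Real.exp (-(j : ℝ)) * B))
    have h6 := ha (1 + A * B ^ 2) (C ^ 2) (sq_nonneg C)
    have h7 : 1 ≤ Real.exp (1 + A * B ^ 2 + C ^ 2) := Real.one_le_exp (by positivity)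
    have h8 : 1 + A * B ^ 2 ≤ Real.exp (1 + A * B ^ 2 + C ^ 2) ^ 2 := by nlinarith
    rw [sub_eq_add_neg, Real.exp_add, mul_pow]
    nlinarith [mul_le_mul_of_nonneg_right h8 (sq_nonneg (Real.exp (-(j : ℝ))))]
  intro i x y hxy H _ _ _ Z hZ
  have key : ∀ (c : S i) (p' : h.K × ℕ) (d : {d : G // h.rr d ≤ |R₀|}) (ε : {ε : ℂ // ‖ε‖ ≤ 1})
      (z : {z : ℂ // ‖z‖ ≤ B}) (g : C(h.Y, ℂ)), (i : ℝ) ≤ h.rr y →
      h.dv c.1 (h.pd y) ≤ Real.exp (-(2 * (i : ℝ))) →
      (∀ ξ, g ξ = (Real.exp (-(i : ℝ)) : ℂ) * ε.1 *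
        cA h (L * h.lam) f p'.1 p'.2 ((kk c * h.a i * d)⁻¹ • ξ)) →
      (h.rr y ≤ i + 1 ∨ ∀ ξ, h.dv (h.pd y) ξ ≤ Real.exp (-(2 * (i + 1 : ℝ))) →
        φ i (some c) ξ - g ξ = (Real.exp (-(i : ℝ)) : ℂ) * z.1) →
      ‖Z (tr h x (φ i (some c) - g))‖ₑ ^ 2 ≤ eo (1 + A * B ^ 2 + C ^ 2 - 2 * i) *
        ∫⁻ ξ in {ξ : G × EE n | h.rr (x * ξ.1) ≤ i + R}, ‖Z (TW h 0 ξ)‖ₑ ^ 2 ∂mm h μ := by
    intro c p' d ε z g h1 h2 h3 h4
    have e0 : ∀ ξ, φ i (some c) ξ - g ξ = (Real.exp (-(i : ℝ)) : ℂ) * ((cA h (L * h.lam) f (kk c) i -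
        ε.1 • act h 0 d (cA h (L * h.lam) f p'.1 p'.2) - z.1 • 1 : C(h.Y, ℂ))
          ((kk c * h.a i)⁻¹ • ξ) + z.1) := fun ξ => by
      show (Real.exp (-(i : ℝ)) : ℂ) * act h 0 _ _ ξ - _ = _ * (_ - ε.1 * act h 0 _ _ _ - z.1 * 1 + _)
      rw [act_zero, act_zero, h3, mul_inv_rev _ d.1, mul_smul]
      ring
    have h5 := hW 0 (by simp) (x⁻¹ * (kk c * h.a i)) (SN.of Z) ((⟨kk c, hk c⟩, i), p', d, ε, z)
      fun ζ hζ => by
        have h6 := hout (kk c) (hk c) i x y ((kk c * h.a i) • ζ) (Nat.cast_nonneg i) h1 hxy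
          (by rw [hkk]; exact h2) (h4.imp id fun h4 => by
            by_contra h7
            have h8 := h4 _ (not_le.1 h7).le
            rw [e0, inv_smul_smul, mul_right_inj' (Complex.ofReal_ne_zero.2 (Real.exp_pos _).ne'),
              add_eq_right] at h8
            exact hζ h8)
        rwa [inv_smul_smul] at h6
    have e1 : tr h x (φ i (some c) - g) = (Real.exp (-(i : ℝ)) : ℂ) •
        (act h 0 (x⁻¹ * (kk c * h.a i)) (cA h (L * h.lam) f (kk c) i -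
        ε.1 • act h 0 d (cA h (L * h.lam) f p'.1 p'.2) - z.1 • 1) + z.1 • 1) :=
      ContinuousMap.ext fun η => by
        show φ i (some c) (x • η) - g (x • η) = _ * (act h 0 _ _ η + z.1 * 1)
        rw [e0, act_zero, mul_inv_rev x⁻¹, inv_inv, mul_smul, mul_one]
    have h6 := bb_le h μ Z x (kk c * h.a i) R
    rw [h.rr_K_mul (hk c), h.rr_a, abs_of_nonneg (Nat.cast_nonneg i)] at h6
    rw [e1, map_smul, map_add, map_smul, hZ, smul_zero, add_zero, en_sq]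
    refine le_trans ?_ (mul_le_mul_right h6 _)
    rw [eo, ← ENNReal.ofReal_mul (Real.exp_pos _).le]
    refine ENNReal.ofReal_le_ofReal ?_
    rw [norm_smul, Complex.norm_real, Real.norm_eq_abs, abs_of_pos (Real.exp_pos _)]
    refine (pow_le_pow_left₀ (mul_nonneg (Real.exp_pos _).le (norm_nonneg _))
      (mul_le_mul_of_nonneg_left h5 (Real.exp_pos (-(i : ℝ))).le) 2).trans ?_
    rw [← mul_assoc, mul_pow]
    refine mul_le_mul_of_nonneg_right ?_ (sq_nonneg _)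
    rw [mul_pow, mul_comm, ← Real.exp_nat_mul, sub_eq_add_neg, Real.exp_add, add_comm _ (C ^ 2)]
    exact mul_le_mul (ha _ _ (by positivity)) (Real.exp_le_exp.2 (by push_cast; linarith))
      (Real.exp_pos _).le (Real.exp_pos _).le
  have h1 := he i y
  have h2 := he (i + 1) y
  have h00 : ∀ j : ℕ, j ≠ 0 → φ j none = 0 := fun j hj => by
    show (if j = 0 then f else 0) = 0
    rw [if_neg hj]
  have h0 := h00 (i + 1) (Nat.succ_ne_zero i)
  generalize e i y = c at h1 ⊢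
  generalize e (i + 1) y = c' at h2 ⊢
  rcases c with _ | c <;> rcases c' with _ | c'
  · have hi : i ≠ 0 := fun hi => by
      have h3 : h.rr y < i := h1
      rw [hi, Nat.cast_zero] at h3
      exact absurd (h.rr_nonneg y) (not_le.2 h3)
    rw [h0, h00 i hi, sub_zero, show tr h x 0 = 0 from rfl, map_zero]
    simp
  · have h3 : h.rr y < i := h1
    have h4 := h2.1
    push_cast at h4
    linarith
  · have h3 : h.rr y < ((i + 1 : ℕ) : ℝ) := h2
    push_cast at h3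
    exact key c (1, 0) ⟨1, by rw [h.rr_one]; exact abs_nonneg _⟩ ⟨0, by simp⟩ ⟨0, by simpa⟩ _
      h1.1 h1.2 (fun ξ => by rw [h0]; simp) (Or.inl h3.le)
  obtain ⟨h3, h4⟩ := h1
  obtain ⟨h5, h6⟩ := h2
  have h7 : Real.exp (-(2 * ((i + 1 : ℕ) : ℝ))) ≤ Real.exp (-(2 * (i : ℝ))) :=
    Real.exp_le_exp.2 (by push_cast; linarith)
  have h8 : h.dv (h.pd y) c'.1 ≤ Real.exp (-(2 * (i : ℝ))) := by
    rw [h.dv_comm]; exact h6.trans h7
  have h9 : ((Real.exp (-((i + 1 : ℕ) : ℝ)) : ℝ) : ℂ) =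
      (Real.exp (-(i : ℝ)) : ℝ) * (Real.exp (-1) : ℝ) := by
    rw [← Complex.ofReal_mul, ← Real.exp_add]
    congr 2
    push_cast
    ring
  have h10 : ∀ j : ℝ, ((Real.exp (-j) : ℝ) : ℂ) * (Real.exp j : ℝ) = 1 := fun j => by
    rw [← Complex.ofReal_mul, ← Real.exp_add, neg_add_cancel, Real.exp_zero, Complex.ofReal_one]
  refine key c (⟨kk c', hk c'⟩, i + 1) ⟨(kk c * h.a i)⁻¹ * (kk c' * h.a (i + 1 : ℕ)),
    (hR₀ _ (hk c) _ (hk c') i _ (Nat.cast_nonneg _) (Nat.cast_nonneg _) (by simp)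
      (by rw [hkk, hkk]; exact htri _ _ _ _ h4 h8)).trans (le_abs_self _)⟩
    ⟨(Real.exp (-1) : ℝ), by
      rw [Complex.norm_real, Real.norm_eq_abs, abs_of_pos (Real.exp_pos _)]
      exact Real.exp_le_one_iff.2 (by norm_num)⟩
    ⟨_, hB (⟨kk c, hk c⟩, i) ((kk c * h.a i)⁻¹ • c'.1)⟩ _ h3 h4 (fun ξ => ?_)
    (Or.inr fun ξ hξ => ?_)
  · show (Real.exp (-((i + 1 : ℕ) : ℝ)) : ℂ) * act h 0 _ _ ξ = _
    rw [act_zero, mul_inv_cancel_left, h9]
  · have hξ' : h.dv (h.pd y) ξ ≤ Real.exp (-(2 * ((i + 1 : ℕ) : ℝ))) := by push_cast; exact hξ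
    show (Real.exp (-(i : ℝ)) : ℂ) * act h 0 _ _ ξ -
      (Real.exp (-((i + 1 : ℕ) : ℝ)) : ℂ) * act h 0 _ _ ξ = _ * cA h _ _ (kk c) i _
    rw [act_zero, act_zero, cA_apply, cA_apply, cA_apply, smul_inv_smul, smul_inv_smul,
      smul_inv_smul, ps1 _ _ (hin _ (hk c) i (h.pd y) ξ (Nat.cast_nonneg _) (by rwa [hkk])
        (hξ'.trans h7)), ps1 _ _ (hin _ (hk c') _ (h.pd y) ξ (Nat.cast_nonneg _) (by rwa [hkk])
        hξ'), ps1 _ _ (hin _ (hk c) i (h.pd y) c'.1 (Nat.cast_nonneg _) (by rwa [hkk]) h8),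
      ← mul_assoc, ← mul_assoc, ← mul_assoc, ← mul_assoc, ← mul_assoc, ← mul_assoc, h10, h10, hkk,
      hkk]
    simp

/-- **the walls control the cells** -/
theorem walls : Walls h (mm h μ) (TW h 0) Prod.fst :=
  ⟨_, dense_em h, by
    rintro - ⟨η, rfl⟩
    exact cells h μ η⟩

end Vale.Agent.P092RL
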