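import Vale.Agent.P092RL.Op

/-!
P092, rank one, block LEV (helper26): from the energy of the walls to the levels.
-/

set_option linter.all false

open scoped InnerProductSpace ENNReal NNReal
open Filter Topology MeasureTheory ContinuousLinearMap

namespace Vale.Agent.P092RL

open Vale.Agent.P092.H793.Re Vale.Agent.P092RG Vale.Agent.P092CP Vale.Agent.P092RS
open Vale.Agent.P092.RC (Cm)
open Vale.Agent.P092EN (Cov Ucp)

variable {n n' : ℕ} {G G' K : Type} [Group G] [TopologicalSpace G] [IsTopologicalGroup G]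
  [LocallyCompactSpace G] [SecondCountableTopology G] [T2Space G] [MeasurableSpace G]
  [BorelSpace G] [Group G'] [TopologicalSpace G'] [IsTopologicalGroup G']
  [LocallyCompactSpace G'] [SecondCountableTopology G'] [T2Space G'] [MeasurableSpace G']
  [BorelSpace G'] [NormedAddCommGroup K] [InnerProductSpace ℂ K] [CompleteSpace K]
  {ρ : G →* SLn n} {w : Fin n → ℝ} {ρ' : G' →* SLn n'} {w' : Fin n' → ℝ} {μ : Measure G}
  {μ' : Measure G'} [μ.IsHaarMeasure] [μ'.IsHaarMeasure] {W : Set (K →L[ℂ] K)}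

/-- unital completely positive covariant maps with values in `B` -/
structure UC (h' : R1 ρ' w') (C : Cpl μ μ' W) (Φ : C(h'.Y, ℂ) →ₗ[ℂ] (K →L[ℂ] K)) : Prop where
  ucp : Ucp Φ
  cm : ∀ f, Cm W (Φ f)
  cov : Cov C.t.π Φ

variable {h' : R1 ρ' w'} {C : Cpl μ μ' W} {Φ Ψ : C(h'.Y, ℂ) →ₗ[ℂ] (K →L[ℂ] K)}

theorem cj_eq (C : Cpl μ μ' W) (v : G) (f : C(h'.Y, ℂ)) :
    P092EN.cj (C.s.π v) Φ f = ad C.s.π v (Φ f) := by
  rw [P092EN.cj_apply, C.s.adj]; rfl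

theorem UC.cj (hΦ : UC h' C Φ) (v : G) : UC h' C (P092EN.cj (C.s.π v) Φ) where
  ucp := ⟨hΦ.ucp.toCp.cj _, by rw [cj_eq, hΦ.ucp.one, ad, mul_one, pi_mul_inv]⟩
  cm f := by rw [cj_eq]; exact C.s.conj _ (hΦ.cm f) v
  cov x f f' e := by
    rw [cj_eq, cj_eq, ← hΦ.cov x f f' e, ad, ad]
    simp only [← mul_assoc]
    rw [C.comm]
    simp only [mul_assoc]
    rw [C.comm]

theorem UC.posU (hΦ : UC h' C Φ) : PosU h' C Φ where
  one := hΦ.ucp.one
  pos f := by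
    rw [nonneg_iff_isPositive, isPositive_def']
    refine ⟨?_, fun ξ => ?_⟩
    · rw [IsSelfAdjoint, star_eq_adjoint, hΦ.ucp.adj, star_mul, star_star]
    · have := hΦ.ucp.toCp.pos f ξ
      rwa [← inner_conj_symm, Complex.conj_re] at this
  norm := hΦ.ucp.norm_le
  cm := hΦ.cm
  cov := hΦ.cov

theorem Tr_tr (hΦ : UC h' C Φ) (hΨ : UC h' C Ψ) (x : G') (g : C(h'.Y, ℂ)) {E : Set G'}
    (hE : MeasurableSet E) : C.t.Tr ((Φ g - Ψ g) * C.t.P E) =
      C.t.Tr ((Φ - Ψ) (tr h' x g) * C.t.P ((fun y => x * y) ⁻¹' E)) := by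
  have e := C.t.π_P hE x⁻¹
  rw [inv_inv] at e
  rw [← hΦ.cov x (tr h' x g) g fun _ => rfl, ← hΨ.cov x (tr h' x g) g fun _ => rfl, ← sub_mul,
    ← mul_sub, mul_assoc, e, mul_assoc, ← mul_assoc (_ - _), ← mul_assoc, C.t.Tr_conj]
  rfl

variable {Ξ : Type} [TopologicalSpace Ξ] [SecondCountableTopology Ξ] [MeasurableSpace Ξ]
  [BorelSpace Ξ] {m : Measure Ξ} [SFinite m] {T : Ξ → C(h'.Y, ℂ)} {fr : Ξ → G'}

theorem cont_Φ (hΦ : Ucp Φ) : Continuous Φ :=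
  AddMonoidHomClass.continuous_of_bound Φ 1 fun f => by rw [one_mul]; exact hΦ.norm_le f

theorem meas_en (hΦ : UC h' C Φ) (hT : Continuous T) (P : K →L[ℂ] K) :
    Measurable fun q : G × Ξ => C.t.Tr ((ad C.s.π q.1 (Φ (T q.2)) - Φ (T q.2)) * P) := by
  have h1 : Continuous fun q : (G × Ξ) × G' => Φ (T q.1.2) :=
    (cont_Φ hΦ.ucp).comp (hT.comp (continuous_snd.comp continuous_fst))
  have h2 : Continuous fun q : (G × Ξ) × G' => P (C.t.π q.2 C.t.Ω) :=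
    P.continuous.comp ((C.t.cont _).comp continuous_snd)
  have h3 : Continuous fun q : (G × Ξ) × G' =>
      ((ad C.s.π q.1.1 (Φ (T q.1.2)) - Φ (T q.1.2)) * P) (C.t.π q.2 C.t.Ω) :=
    (cont_ap C.s (continuous_fst.comp continuous_fst) (h1.clm_apply
      (cont_ap C.s (continuous_fst.comp continuous_fst).inv h2))).sub (h1.clm_apply h2)
  exact (h3.enorm.measurable.pow_const 2).lintegral_prod_right'

theorem meas_en₂ (hΦ : UC h' C Φ) (hΨ : UC h' C Ψ) (hT : Continuous T) (P : K →L[ℂ] K) :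
    Measurable fun ξ => C.t.Tr ((Φ - Ψ) (T ξ) * P) := by
  have h1 : Continuous fun q : Ξ × G' => (Φ - Ψ) (T q.1) :=
    ((cont_Φ hΦ.ucp).sub (cont_Φ hΨ.ucp)).comp (hT.comp continuous_fst)
  have h3 : Continuous fun q : Ξ × G' => ((Φ - Ψ) (T q.1) * P) (C.t.π q.2 C.t.Ω) :=
    h1.clm_apply (P.continuous.comp ((C.t.cont _).comp continuous_snd))
  exact (h3.enorm.measurable.pow_const 2).lintegral_prod_right'

variable {f : C(h'.Y, ℂ)} {a c₀ : ℝ}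

/-- the operators of the levels -/
noncomputable def Cells.R (L : Cells h' m T fr f a c₀) (C : Cpl μ μ' W)
    (D : C(h'.Y, ℂ) →ₗ[ℂ] (K →L[ℂ] K)) (j : ℕ) : K →L[ℂ] K :=
  Sm C.t (L.e j) fun c => D (L.φ j c)

theorem Cells.cm_R (L : Cells h' m T fr f a c₀) {D : C(h'.Y, ℂ) →ₗ[ℂ] (K →L[ℂ] K)}
    (hD : ∀ g, Cm W (D g)) (j : ℕ) : Cm W (L.R C D j) := cm_Sm C.t (L.me _) fun _ => hD _

theorem Cells.win (L : Cells h' m T fr f a c₀) (hΦ : UC h' C Φ) (hΨ : UC h' C Ψ)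
    (hT : Continuous T) (i : ℕ) (x : G') {E : Set G'} (hE : MeasurableSet E)
    (hx : ∀ y ∈ E, h'.rr (x⁻¹ * y) ≤ 1) :
    C.t.Tr ((L.R C (Φ - Ψ) i - L.R C (Φ - Ψ) (i + 1)) * C.t.P E) ≤ eo (a - 2 * i) *
      ∫⁻ ξ in {ξ | h'.rr (x * fr ξ) ≤ i + c₀},
        C.t.Tr ((Φ - Ψ) (T ξ) * C.t.P (ball h' 1)) ∂m := by
  have hD : ∀ g, Cm W ((Φ - Ψ) g) := fun g => cm_sub (hΦ.cm g) (hΨ.cm g)
  have hN : ∀ g, ‖(Φ - Ψ) g‖ ≤ 2 * ‖g‖ := fun g =>
    (norm_sub_le _ _).trans (by linarith [hΦ.ucp.norm_le g, hΨ.ucp.norm_le g])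
  let e : G' → Fin (L.N i) × Fin (L.N (i + 1)) := fun y => (L.e i y, L.e (i + 1) y)
  have he : ∀ c, MeasurableSet {y | e y = c} := fun c => by
    have : {y | e y = c} = {y | L.e i y = c.1} ∩ {y | L.e (i + 1) y = c.2} := by
      ext y; exact Prod.ext_iff
    rw [this]; exact (L.me _ _).inter (L.me _ _)
  have hm : ∀ c, MeasurableSet ((fun y => x * y) ⁻¹' ({y | e y = c} ∩ E)) := fun c =>
    measurable_const_mul x ((he c).inter hE)
  have hB : (fun y => x * y) ⁻¹' E ⊆ ball h' 1 := fun y hy => by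
    have := hx _ hy
    rwa [inv_mul_cancel_left] at this
  have hfin : μ' (ball h' 1) ≠ ∞ := (h'.isCompact_ball 1).measure_lt_top.ne
  rw [Tr_cells C he (cm_sub (L.cm_R hD _) (L.cm_R hD _)) hE]
  have h1 : ∀ c, C.t.Tr ((L.R C (Φ - Ψ) i - L.R C (Φ - Ψ) (i + 1)) * C.t.P ({y | e y = c} ∩ E)) ≤
      eo (a - 2 * i) * ∫⁻ ξ in {ξ | h'.rr (x * fr ξ) ≤ i + c₀},
        C.t.Tr ((Φ - Ψ) (T ξ) * C.t.P ((fun y => x * y) ⁻¹' ({y | e y = c} ∩ E))) ∂m := fun c => by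
    rcases ({y | e y = c} ∩ E).eq_empty_or_nonempty with h0 | ⟨y, hy, hy'⟩
    · rw [h0, C.t.P_empty, mul_zero, C.t.Tr_zero]; exact bot_le
    obtain ⟨Z, hZ⟩ := exists_Z C (Φ - Ψ) hD hN (hm c) (ne_top_of_le_ne_top hfin
      (measure_mono fun y hy => hB hy.2))
    have h2 : Z 1 = 0 := by
      have := hZ 1
      rw [LinearMap.sub_apply, hΦ.ucp.one, hΨ.ucp.one, sub_self, zero_mul, C.t.Tr_zero] at this
      exact enorm_eq_zero.1 (pow_eq_zero_iff two_ne_zero |>.1 this)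
    have h3 := L.dom i x y (hx y hy') _ Z h2
    simp only [hZ] at h3
    rw [sub_mul, Cells.R, Cells.R,
      Sm_mul_P C.t (L.me _) _ ((he c).inter hE) (c := L.e i y)
        (fun z hz => congrArg Prod.fst (hz.1.trans (Eq.symm hy))),
      Sm_mul_P C.t (L.me _) _ ((he c).inter hE) (c := L.e (i + 1) y)
        (fun z hz => congrArg Prod.snd (hz.1.trans (Eq.symm hy))), ← sub_mul, ← map_sub,
      LinearMap.sub_apply, Tr_tr hΦ hΨ x _ ((he c).inter hE)]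
    exact h3
  refine (Finset.sum_le_sum fun c _ => h1 c).trans ?_
  rw [← Finset.mul_sum, ← lintegral_finset_sum _ fun c _ => meas_en₂ hΦ hΨ hT _]
  gcongr with ξ
  have h4 := Tr_cells C (e := fun y => e (x * y)) (fun c => measurable_const_mul x (he c))
    (hD (T ξ)) (measurable_const_mul x hE)
  refine (le_of_eq h4.symm).trans ?_
  rw [Tr_mul_P C (hD _) (measurable_const_mul x hE), Tr_mul_P C (hD _) (meas_ball h' 1),
    ← Set.inter_eq_left.2 hB, ← C.t.P_mul (measurable_const_mul x hE) (meas_ball h' 1), mul_assoc]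
  refine (C.t.Tr_mul_le _ _).trans (mul_le_of_le_one_left' (pow_le_one₀ bot_le ?_))
  rw [← ofReal_norm_eq_enorm, ENNReal.ofReal_le_one]
  exact C.t.norm_P_le (measurable_const_mul x hE)

theorem Cells.tail (L : Cells h' m T fr f a c₀) (hΦ : UC h' C Φ) (hΨ : UC h' C Ψ)
    (hT : Continuous T) (hfr : Measurable fr) (i : ℕ) (r : ℝ) :
    μ' (ball h' 1) * C.t.Tr ((L.R C (Φ - Ψ) i - L.R C (Φ - Ψ) (i + 1)) *
      C.t.P {x | (i : ℝ) + r ≤ h'.rr x}) ≤ eo (a - 2 * i) * μ' (ball h' (i + c₀)) *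
      ∫⁻ ξ in {ξ | r - 1 - c₀ ≤ h'.rr (fr ξ)},
        C.t.Tr ((Φ - Ψ) (T ξ) * C.t.P (ball h' 1)) ∂m := by
  have := C.t.right
  have hD : ∀ g, Cm W ((Φ - Ψ) g) := fun g => cm_sub (hΦ.cm g) (hΨ.cm g)
  have hE : MeasurableSet {x | (i : ℝ) + r ≤ h'.rr x} :=
    (isClosed_le continuous_const h'.continuous_rr).measurableSet
  have hA : MeasurableSet {q : G' × Ξ | h'.rr (q.1 * fr q.2) ≤ i + c₀} :=
    measurableSet_le (h'.measurable_rr.comp (measurable_fst.mul (hfr.comp measurable_snd)))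
      measurable_const
  have hA' : MeasurableSet {ξ | r - 1 - c₀ ≤ h'.rr (fr ξ)} :=
    measurableSet_le measurable_const (h'.measurable_rr.comp hfr)
  obtain ⟨en, hen⟩ : ∃ en : Ξ → ℝ≥0∞, en = {ξ | r - 1 - c₀ ≤ h'.rr (fr ξ)}.indicator
    fun ξ => C.t.Tr ((Φ - Ψ) (T ξ) * C.t.P (ball h' 1)) := ⟨_, rfl⟩
  have hm : Measurable en := hen ▸ (meas_en₂ hΦ hΨ hT _).indicator hA'
  rw [Tr_win C (cm_sub (L.cm_R hD _) (L.cm_R hD _)) hE (meas_ball h' 1),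
    ← lintegral_indicator hA', ← hen]
  have h1 : ∀ x, C.t.Tr ((L.R C (Φ - Ψ) i - L.R C (Φ - Ψ) (i + 1)) *
      C.t.P ((fun y => x⁻¹ * y) ⁻¹' ball h' 1 ∩ {x | (i : ℝ) + r ≤ h'.rr x})) ≤ eo (a - 2 * i) *
      ∫⁻ ξ, {q : G' × Ξ | h'.rr (q.1 * fr q.2) ≤ i + c₀}.indicator 1 (x, ξ) * en ξ ∂m := fun x => by
    rcases ((fun y => x⁻¹ * y) ⁻¹' ball h' 1 ∩ {x | (i : ℝ) + r ≤ h'.rr x}).eq_empty_or_nonempty
      with h0 | ⟨y, hy, hy'⟩
    · rw [h0, C.t.P_empty, mul_zero, C.t.Tr_zero]; exact bot_le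
    refine (L.win hΦ hΨ hT i x ((measurable_const_mul _ (meas_ball h' 1)).inter hE)
      fun y hy => hy.1).trans ?_
    rw [← lintegral_indicator (s := {ξ | h'.rr (x * fr ξ) ≤ i + c₀}) (measurable_prodMk_left hA)]
    gcongr with ξ
    by_cases hξ : h'.rr (x * fr ξ) ≤ i + c₀
    · have h2 : r - 1 - c₀ ≤ h'.rr (fr ξ) := by
        have h3 := h'.rr_mul_le x (x⁻¹ * y)
        have h4 := h'.rr_mul_le (x * fr ξ) (fr ξ)⁻¹
        rw [mul_inv_cancel_left] at h3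
        rw [mul_inv_cancel_right, h'.rr_inv] at h4
        have h5 : h'.rr (x⁻¹ * y) ≤ 1 := hy
        have h6 : (i : ℝ) + r ≤ h'.rr y := hy'
        linarith
      rw [hen, Set.indicator_of_mem (s := {ξ | h'.rr (x * fr ξ) ≤ i + c₀}) hξ,
        Set.indicator_of_mem (s := {q : G' × Ξ | h'.rr (q.1 * fr q.2) ≤ i + c₀}) (a := (x, ξ)) hξ,
        Set.indicator_of_mem (s := {ξ | r - 1 - c₀ ≤ h'.rr (fr ξ)}) h2,
        Pi.one_apply, one_mul]
    · rw [Set.indicator_of_notMem (s := {ξ | h'.rr (x * fr ξ) ≤ i + c₀}) hξ]; exact bot_le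
  refine (lintegral_mono h1).trans (le_of_eq ?_)
  have hj : Measurable fun q : G' × Ξ =>
      {q : G' × Ξ | h'.rr (q.1 * fr q.2) ≤ i + c₀}.indicator 1 q * en q.2 :=
    (measurable_one.indicator hA).mul (hm.comp measurable_snd)
  rw [lintegral_const_mul' _ _ (eo_ne_top _), lintegral_lintegral_swap hj.aemeasurable, mul_assoc,
    ← lintegral_const_mul _ hm]
  congr 1
  refine lintegral_congr fun ξ => ?_
  rw [lintegral_mul_const (f := fun x => {q : G' × Ξ | h'.rr (q.1 * fr q.2) ≤ i + c₀}.indicator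
      1 (x, ξ)) _ ((measurable_one.indicator hA).comp measurable_prodMk_right),
    ← measure_preimage_mul_right μ' (fr ξ), ← lintegral_indicator_one
      (measurable_mul_const _ (meas_ball h' _))]
  rfl

theorem Cells.lev (hT : Continuous T) (hfr : Measurable fr) (a c₀ : ℝ) : ∃ b : ℝ≥0∞, b ≠ ∞ ∧
    ∀ (L : Cells h' m T fr f a c₀) {Φ Ψ : C(h'.Y, ℂ) →ₗ[ℂ] (K →L[ℂ] K)}, UC h' C Φ → UC h' C Ψ →
      Lev h' C.t (Φ f - Ψ f) (2 * Real.exp a)
        (b * ∫⁻ ξ, C.t.Tr ((Φ - Ψ) (T ξ) * C.t.P (ball h' 1)) ∂m)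
        (fun r => b * ∫⁻ ξ in {ξ | r - 1 - c₀ ≤ h'.rr (fr ξ)},
          C.t.Tr ((Φ - Ψ) (T ξ) * C.t.P (ball h' 1)) ∂m) (L.R C (Φ - Ψ)) := by
  obtain ⟨c, hc⟩ := h'.ball_le μ'
  have h0 : μ' (ball h' 1) ≠ 0 := fun h0 =>
    (isOpen_lt h'.continuous_rr continuous_const).measure_ne_zero μ'
      (show {g | h'.rr g < 1}.Nonempty from ⟨1, by simp [h'.rr_one]⟩)
      (measure_mono_null (fun g (hg : h'.rr g < 1) => hg.le) h0)
  have hfin : μ' (ball h' 1) ≠ ∞ := (h'.isCompact_ball 1).measure_lt_top.ne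
  refine ⟨(μ' (ball h' 1))⁻¹ * eo (a + c + h'.Q * |c₀|),
    ENNReal.mul_ne_top (ENNReal.inv_ne_top.2 h0) (eo_ne_top _), fun L Φ Ψ hΦ hΨ => ?_⟩
  have hD : ∀ g, Cm W ((Φ - Ψ) g) := fun g => cm_sub (hΦ.cm g) (hΨ.cm g)
  have key : ∀ (i : ℕ) (r : ℝ), C.t.Tr ((L.R C (Φ - Ψ) i - L.R C (Φ - Ψ) (i + 1)) *
      C.t.P {x | (i : ℝ) + r ≤ h'.rr x}) ≤ (μ' (ball h' 1))⁻¹ * eo (a + c + h'.Q * |c₀|) *
      (∫⁻ ξ in {ξ | r - 1 - c₀ ≤ h'.rr (fr ξ)},
        C.t.Tr ((Φ - Ψ) (T ξ) * C.t.P (ball h' 1)) ∂m) * eo (((h'.Q : ℝ) - 2) * i) := fun i r => by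
    have h1 := L.tail hΦ hΨ hT hfr i r
    have h2 : μ' (ball h' (i + c₀)) ≤ eo (c + h'.Q * (i + |c₀|)) :=
      (measure_mono fun g (hg : h'.rr g ≤ _) => hg.trans (by linarith [le_abs_self c₀])).trans
        (hc _ (by positivity))
    rw [mul_assoc, mul_assoc, ← ENNReal.mul_le_iff_le_inv h0 hfin]
    refine h1.trans ?_
    rw [mul_comm _ (eo (((h'.Q : ℝ) - 2) * i)), ← mul_assoc, ← eo_add]
    have h3 : a + c + h'.Q * |c₀| + ((h'.Q : ℝ) - 2) * i = (a - 2 * i) + (c + h'.Q * (i + |c₀|)) := by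
      ring
    rw [h3, eo_add]
    gcongr
  refine ⟨?_, fun j => cm_Sm C.t (L.me _) fun c => hD _, fun j => ?_, fun i => ?_,
    fun i r => key i r⟩
  · have h1 : ∀ c, (Φ - Ψ) (L.φ 0 c) = Φ f - Ψ f := fun c => by
      obtain ⟨z, hz⟩ := L.zero c
      rw [hz, map_add, map_smul, LinearMap.sub_apply _ _ 1, hΦ.ucp.one, hΨ.ucp.one, sub_self,
        smul_zero, add_zero, LinearMap.sub_apply]
    simp only [Cells.R, Sm, h1]
    rw [← Finset.mul_sum, P_cells C.t (L.me 0), mul_one]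
  · have h1 : L.R C (Φ - Ψ) j = (Sm C.t (L.e j) fun c => Φ (L.φ j c)) -
        Sm C.t (L.e j) fun c => Ψ (L.φ j c) := by
      simp only [Cells.R, Sm, LinearMap.sub_apply, sub_mul, Finset.sum_sub_distrib]
    have h2 := norm_Sm_le C.t (L.me j) hΦ.ucp (Real.exp_pos _).le (L.op j)
    have h3 := norm_Sm_le C.t (L.me j) hΨ.ucp (Real.exp_pos _).le (L.op j)
    rw [h1, mul_assoc, ← Real.exp_add, ← sub_eq_add_neg]
    linarith [norm_sub_le (Sm C.t (L.e j) fun c => Φ (L.φ j c))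
      (Sm C.t (L.e j) fun c => Ψ (L.φ j c))]
  · have h1 := key i (-i)
    have h2 : {x | (i : ℝ) + -i ≤ h'.rr x} = Set.univ :=
      Set.eq_univ_of_forall fun x => by simpa using h'.rr_nonneg x
    rw [h2, C.t.P_univ, mul_one] at h1
    refine h1.trans ?_
    gcongr
    exact Measure.restrict_le_self

/-- **From the walls to the levels.** -/
theorem fe_of_few {h : R1 ρ w} (hT : Continuous T) (hfr : Measurable fr) (hW : Walls h' m T fr)
    (hF : FEw h h' C m T) : FE h h' C := by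
  obtain ⟨Φ, h1, h2, h3, h4⟩ := hF
  have hΦ : UC h' C Φ := ⟨h1, h2, h3⟩
  obtain ⟨F, hd, hF⟩ := hW
  refine ⟨Φ, hΦ.posU, F, hd, fun f hf => ?_⟩
  obtain ⟨a, c₀, ⟨L⟩⟩ := hF f hf
  obtain ⟨b, hb, hL⟩ := Cells.lev (C := C) (f := f) (m := m) hT hfr a c₀
  have hm := meas_en hΦ hT (C.t.P (ball h' 1))
  have hA : ∀ r : ℕ, MeasurableSet {ξ | r - 1 - c₀ ≤ h'.rr (fr ξ)} := fun r =>
    measurableSet_le measurable_const (h'.measurable_rr.comp hfr)
  refine ⟨2 * Real.exp a, fun v => b * ∫⁻ ξ,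
      C.t.Tr ((ad C.s.π v (Φ (T ξ)) - Φ (T ξ)) * C.t.P (ball h' 1)) ∂m,
    fun v r => b * ∫⁻ ξ in {ξ | r - 1 - c₀ ≤ h'.rr (fr ξ)},
      C.t.Tr ((ad C.s.π v (Φ (T ξ)) - Φ (T ξ)) * C.t.P (ball h' 1)) ∂m,
    hm.lintegral_prod_right'.const_mul b, fun r => hm.lintegral_prod_right'.const_mul b, ?_, ?_,
    fun v _ => ?_⟩
  · rw [lintegral_const_mul' _ _ hb]
    exact ENNReal.mul_ne_top hb h4
  · simp only [lintegral_const_mul' _ _ hb]
    rw [← mul_zero b]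
    refine ENNReal.Tendsto.const_mul ?_ (Or.inr hb)
    have h5 : ∀ r : ℕ, ∫⁻ v in ball h 1, ∫⁻ ξ in {ξ | r - 1 - c₀ ≤ h'.rr (fr ξ)},
        C.t.Tr ((ad C.s.π v (Φ (T ξ)) - Φ (T ξ)) * C.t.P (ball h' 1)) ∂m ∂μ =
        ∫⁻ q, (Prod.snd ⁻¹' {ξ | r - 1 - c₀ ≤ h'.rr (fr ξ)}).indicator (fun q : G × Ξ =>
          C.t.Tr ((ad C.s.π q.1 (Φ (T q.2)) - Φ (T q.2)) * C.t.P (ball h' 1))) q
            ∂(μ.restrict (ball h 1)).prod m := fun r => by
      rw [lintegral_prod _ (hm.indicator (measurable_snd (hA r))).aemeasurable]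
      exact lintegral_congr fun v => by rw [← lintegral_indicator (hA r)]; rfl
    simp only [h5]
    rw [← lintegral_zero (μ := (μ.restrict (ball h 1)).prod m)]
    refine tendsto_lintegral_of_dominated_convergence _
      (fun r => hm.indicator (measurable_snd (hA r)))
      (fun r => Eventually.of_forall fun q => Set.indicator_le_self _ _ q)
      (by rwa [lintegral_prod _ hm.aemeasurable]) (Eventually.of_forall fun q => ?_)
    refine tendsto_const_nhds.congr' ?_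
    filter_upwards [tendsto_natCast_atTop_atTop.eventually
      (eventually_gt_atTop (h'.rr (fr q.2) + 1 + c₀))] with r hr
    refine (Set.indicator_of_notMem (fun h0 => ?_) _).symm
    have h6 : (r : ℝ) - 1 - c₀ ≤ h'.rr (fr q.2) := h0
    linarith
  · have h5 := hL L (hΦ.cj v) hΦ
    simp only [LinearMap.sub_apply, cj_eq] at h5
    exact ⟨_, h5⟩

end Vale.Agent.P092RL
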