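import Vale.Agent.P092RL.Wall
import Vale.Agent.P092RG.QuoM
import Vale.Agent.P092RG.Cell

/-!
P092, rank one (helper26): nets on the boundary and the functions of the cells.
-/

set_option linter.all false

open MeasureTheory Filter Topology
open scoped InnerProductSpace ContDiff ENNReal

namespace Vale.Agent.P092RL

open Vale.Agent.P092.H793.Re Vale.Agent.P092RG Vale.Agent.P092RA

theorem exists_sel {α ι : Type} [MeasurableSpace α] [Finite ι] [Nonempty ι] (p : α → ι → Prop)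
    (hm : ∀ c, MeasurableSet {y | p y c}) (he : ∀ y, ∃ c, p y c) :
    ∃ e : α → ι, (∀ c, MeasurableSet {y | e y = c}) ∧ ∀ y, p y (e y) :=
  ⟨fun y => Classical.epsilon (p y), fun c => (measurable_pi_lambda p fun c =>
    measurableSet_setOf.1 (hm c)) (Set.toFinite {q | Classical.epsilon q = c}).measurableSet,
    fun y => Classical.epsilon_spec (he y)⟩

theorem exists_E1 : ∃ E : ℝ → ℂ, ContDiff ℝ ∞ E ∧ ∀ x : ℝ, (x : ℂ) * E x = ee x - 1 := by
  have h1 : Differentiable ℂ fun z : ℂ => Complex.exp (2 * Real.pi * z * Complex.I) := by fun_prop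
  have h2 : Differentiable ℂ (dslope (fun z : ℂ => Complex.exp (2 * Real.pi * z * Complex.I)) 0) :=
    differentiableOn_univ.1 ((Complex.differentiableOn_dslope univ_mem).2 h1.differentiableOn)
  refine ⟨fun x => dslope (fun z : ℂ => Complex.exp (2 * Real.pi * z * Complex.I)) 0 x,
    (h2.contDiff.restrict_scalars ℝ).comp Complex.ofRealCLM.contDiff, fun x => ?_⟩
  have := sub_smul_dslope (fun z : ℂ => Complex.exp (2 * Real.pi * z * Complex.I)) 0 x
  rw [sub_zero, smul_eq_mul] at this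
  rw [this]
  unfold ee
  simp

variable {n : ℕ} {G : Type} [Group G] [TopologicalSpace G]
variable {ρ : G →* SLn n} {w : Fin n → ℝ} (h : R1 ρ w)
include h

theorem dv_tri' : ∃ τ : ℝ, 0 ≤ τ ∧ ∀ (y y' y'' : h.Y) (x : ℝ), h.dv y y' ≤ x → h.dv y' y'' ≤ x →
    h.dv y y'' ≤ Real.exp (2 * τ) * x := by
  obtain ⟨T, hT, H⟩ := h.dv_tri
  refine ⟨T, hT.le, fun y y' y'' x e e' => (H y y' y'').trans ?_⟩
  have hx := (h.dv_nonneg _ _).trans e
  have := Real.add_one_le_exp (2 * T)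
  nlinarith

/-- separated sets -/
def Sep (j : ℝ) (S : Finset h.Y) : Prop :=
  ∀ y ∈ S, ∀ y' ∈ S, y ≠ y' → Real.exp (-(2 * j)) < h.dv y y'

/-- the function of a cell, seen from `κ a_j` -/
noncomputable def cA (l : ℝ) (f : C(h.Y, ℂ)) (κ : G) (j : ℝ) : C(h.Y, ℂ) :=
  ⟨fun ζ => (Real.exp j : ℂ) * ((f ((κ * h.a j) • ζ) - f (κ : h.Y)) * ps l (be h (κ * h.a j) ζ)),
    continuous_const.mul (((f.continuous.comp (continuous_const_smul _)).sub continuous_const).mul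
      (Complex.continuous_ofReal.comp ((continuous_ps l).comp
        ((continuous_be h).comp (Continuous.prodMk_right _)))))⟩

theorem cA_apply (l : ℝ) (f : C(h.Y, ℂ)) (κ : G) (j : ℝ) (ζ : h.Y) : cA h l f κ j ζ =
    (Real.exp j : ℂ) * ((f ((κ * h.a j) • ζ) - f (κ : h.Y)) * ps l (be h (κ * h.a j) ζ)) := rfl

theorem tame_cA {l : ℝ} (hl : 0 < l) (η : EE n) :
    Tame h fun (p : h.K × ℕ) ζ => cA h l (em (du h) η) p.1 p.2 ζ := by
  obtain ⟨E, hE, e1⟩ := exists_E1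
  obtain ⟨V, hV, e2⟩ := exists_inv (Real.exp_pos (-(4 * l)))
  choose D hD e3 using fun p : h.K × ℕ =>
    exists_con h p.1.2 h.K.one_mem (Nat.cast_nonneg (α := ℝ) p.2)
  simp only [mul_one] at e3
  have t1 := Tame.be (h := h) fun p : h.K × ℕ => (p.1 : G) * h.a p.2
  have t2 := Tame.lin (h := h) (Λ := (1 + n) * ‖η‖)
    (l := fun p : h.K × ℕ => Real.exp p.2 • (D p).adjoint η) fun p => by
      rw [norm_smul, Real.norm_eq_abs, abs_of_pos (Real.exp_pos _)]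
      refine (mul_le_mul_of_nonneg_left (((D p).adjoint.le_opNorm η).trans
        (mul_le_mul_of_nonneg_right ((LinearIsometryEquiv.norm_map _ _).trans_le (hD p))
          (norm_nonneg η))) (Real.exp_pos _).le).trans (le_of_eq ?_)
      rw [mul_right_comm, mul_left_comm, ← Real.exp_add, add_neg_cancel, Real.exp_zero, mul_one]
  have t3 := t2.mul (t1.comp hV)
  have t4 := Tame.cst (h := h) (Λ := 1) (a := fun p : h.K × ℕ => Real.exp (-(p.2 : ℝ))) fun p => by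
    rw [abs_of_pos (Real.exp_pos _)]
    exact Real.exp_le_one_iff.2 (neg_nonpos.2 (Nat.cast_nonneg _))
  have t5 := Tame.cstC (h := h) (Λ := 1)
    (c := fun p : h.K × ℕ => em (du h) η ((p.1 : G) : h.Y)) fun p => (norm_ee _).le
  refine ((t5.mul (t3.ofReal.mul ((t4.mul t3).comp hE))).mul
    (t1.comp (contDiff_ps l)).ofReal).congr fun p ζ => ?_
  rw [cA_apply]
  by_cases h0 : ps l (be h (p.1 * h.a p.2) ζ) = 0
  · simp only [h0, Complex.ofReal_zero, mul_zero]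
  have h1 : Real.exp (-(4 * l)) ≤ be h (p.1 * h.a p.2) ζ := by
    by_contra h2
    exact h0 (ps_zero hl (not_le.1 h2).le)
  have h2 : Real.exp (-(p.2 : ℝ)) * (⟪Real.exp p.2 • (D p).adjoint η, du h ζ⟫_ℝ *
      V (be h (p.1 * h.a p.2) ζ)) = ⟪η, du h ((p.1 * h.a p.2 : G) • ζ)⟫_ℝ -
        ⟪η, du h ((p.1 : G) : h.Y)⟫_ℝ := by
    have h3 := (be_pos h (p.1 * h.a p.2) ζ).ne'
    rw [e2 _ h1, real_inner_smul_left, ContinuousLinearMap.adjoint_inner_left, ← e3,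
      real_inner_smul_right, inner_sub_right, Real.exp_neg]
    field_simp
  have h3 := e1 (Real.exp (-(p.2 : ℝ)) * (⟪Real.exp p.2 • (D p).adjoint η, du h ζ⟫_ℝ *
      V (be h (p.1 * h.a p.2) ζ)))
  have h4 : em (du h) η ((p.1 * h.a p.2 : G) • ζ) = em (du h) η ((p.1 : G) : h.Y) *
      ee (Real.exp (-(p.2 : ℝ)) * (⟪Real.exp p.2 • (D p).adjoint η, du h ζ⟫_ℝ *
      V (be h (p.1 * h.a p.2) ζ))) := by
    rw [h2, em_apply, em_apply, ← ee_add, add_sub_cancel]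
  have h5 : ((Real.exp p.2 : ℝ) : ℂ) * (Real.exp (-(p.2 : ℝ)) : ℝ) = 1 := by
    rw [← Complex.ofReal_mul, ← Real.exp_add, add_neg_cancel, Real.exp_zero, Complex.ofReal_one]
  rw [h4, ← mul_sub_one, ← h3, Complex.ofReal_mul]
  generalize E _ = z1
  generalize ((ps l (be h (p.1 * h.a p.2) ζ) : ℝ) : ℂ) = z2
  generalize ((⟪Real.exp p.2 • (D p).adjoint η, du h ζ⟫_ℝ * V (be h (p.1 * h.a p.2) ζ) : ℝ) : ℂ)
    = z3
  linear_combination (em (du h) η ((p.1 : G) : h.Y) * z1 * z2 * z3) * h5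

/-- points close to `κ` are in the shadow of `κ a_j` -/
theorem in_shadow : ∃ L : ℝ, 0 < L ∧ ∀ κ ∈ h.K, ∀ (j : ℝ) (ξ₀ ξ : h.Y), 0 ≤ j →
    h.dv (κ : h.Y) ξ₀ ≤ Real.exp (-(2 * j)) → h.dv ξ₀ ξ ≤ Real.exp (-(2 * j)) →
      -L ≤ bo h (κ * h.a j) ((κ * h.a j)⁻¹ • ξ) := by
  obtain ⟨τ, hτ, H⟩ := dv_tri' h
  obtain ⟨C, hC, H'⟩ := h.exp_co_a'
  refine ⟨|Real.log (C * (Real.exp (2 * τ) + 1))| + 1, by positivity,
    fun κ hκ j ξ₀ ξ hj e1 e2 => ?_⟩
  have h1 := H _ _ _ _ e1 e2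
  have h2 := H' (-j) (κ⁻¹ • ξ)
  have h3 : h.dv h.y0 (κ⁻¹ • ξ) = h.dv (κ : h.Y) ξ := by
    rw [← h.dv_K_smul hκ, smul_inv_smul, h.smul_y0]
  have h4 := h.co_inv (κ * h.a j)⁻¹ ξ
  have h5 : h.co (κ * h.a j)⁻¹ ξ = h.co (h.a (-j)) (κ⁻¹ • ξ) := by
    rw [mul_inv_rev, h.co_mul, h.co_of_K (h.K.inv_mem hκ), add_zero, h.a_neg]
  have h6 : h.co (h.a (-j)) (κ⁻¹ • ξ) ≤ Real.log (C * (Real.exp (2 * τ) + 1)) - j := by
    rw [← Real.exp_le_exp, Real.exp_sub, Real.exp_log (by positivity), div_eq_mul_inv,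
      ← Real.exp_neg, mul_assoc]
    refine h2.trans (mul_le_mul_of_nonneg_left ?_ hC.le)
    rw [neg_neg, h3, add_mul, one_mul]
    refine add_le_add ((mul_le_mul_of_nonneg_left h1 (Real.exp_pos _).le).trans (le_of_eq ?_))
      (mul_le_of_le_one_right (Real.exp_pos _).le (h.dv_le_one _ _))
    rw [mul_left_comm, ← Real.exp_add]
    congr 2
    ring
  unfold bo
  rw [inv_inv, h5] at h4
  rw [h4, h.rr_K_mul hκ, h.rr_a, abs_of_nonneg hj]
  linarith [le_abs_self (Real.log (C * (Real.exp (2 * τ) + 1)))]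

/-- points far from the direction of `y` are in the shadow of `κ a_i` seen from `y` -/
theorem out_shadow : ∃ C : ℝ, ∀ κ ∈ h.K, ∀ (i : ℝ) (x y : G) (ξ : h.Y), 0 ≤ i → i ≤ h.rr y →
    h.rr (x⁻¹ * y) ≤ 1 → h.dv (κ : h.Y) (h.pd y) ≤ Real.exp (-(2 * i)) →
    (h.rr y ≤ i + 1 ∨ Real.exp (-(2 * (i + 1))) ≤ h.dv (h.pd y) ξ) →
      -C ≤ bo h (x⁻¹ * (κ * h.a i)) ((κ * h.a i)⁻¹ • ξ) := by
  obtain ⟨τ, hτ, H⟩ := dv_tri' h
  obtain ⟨C, hC, H'⟩ := h.exp_co_a'
  obtain ⟨R, hR⟩ := near_K h 1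
  refine ⟨max (2 * (R + 2)) (Real.log (C * (Real.exp (2 * τ) * Real.exp 2 + Real.exp 2)) + R + 2),
    fun κ hκ i x y ξ hi hy hx e1 e2 => ?_⟩
  obtain ⟨k, hk, k', hk', e3, e4⟩ := h.kak_pd y
  have h1 : h.rr (y⁻¹ * (κ * h.a i)) ≤ h.rr y - i + R := by
    have h2 := hR k hk κ hκ i i hi hi (by simp) (by rw [one_mul, h.dv_comm, ← e4]; exact e1)
    have h3 : y⁻¹ * (κ * h.a i) =
        k'⁻¹ * (h.a (-(h.rr y - i)) * ((k * h.a i)⁻¹ * (κ * h.a i))) := by
      conv_lhs => rw [e3]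
      rw [neg_sub, sub_eq_add_neg, add_comm, h.a_add, h.a_neg]
      group
    rw [h3, h.rr_K_mul (h.K.inv_mem hk')]
    refine (h.rr_mul_le _ _).trans ?_
    rw [h.rr_a, abs_neg, abs_of_nonneg (sub_nonneg.2 hy)]
    linarith
  have h2 : h.rr (x⁻¹ * (κ * h.a i)) ≤ h.rr y - i + R + 1 := by
    have := h.rr_mul_le (x⁻¹ * y) (y⁻¹ * (κ * h.a i))
    rw [mul_assoc, mul_inv_cancel_left] at this
    linarith
  unfold bo
  rcases e2 with e2 | e2
  · have := (abs_le.1 (h.abs_co_le (x⁻¹ * (κ * h.a i)) ((κ * h.a i)⁻¹ • ξ))).1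
    linarith [le_max_left (2 * (R + 2))
      (Real.log (C * (Real.exp (2 * τ) * Real.exp 2 + Real.exp 2)) + R + 2)]
  have h3 : h.dv h.y0 (κ⁻¹ • ξ) = h.dv (κ : h.Y) ξ := by
    rw [← h.dv_K_smul hκ, smul_inv_smul, h.smul_y0]
  have h4 := h.co_inv (κ * h.a i)⁻¹ ξ
  have h5 : h.co (κ * h.a i)⁻¹ ξ = h.co (h.a (-i)) (κ⁻¹ • ξ) := by
    rw [mul_inv_rev, h.co_mul, h.co_of_K (h.K.inv_mem hκ), add_zero, h.a_neg]
  have h6 := h.dv_pd y (y⁻¹ • ξ)
  have h7 := h.co_inv y⁻¹ ξ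
  rw [inv_inv] at h7
  rw [smul_inv_smul, h7] at h6
  have h8 : Real.exp (-(2 * i)) ≤ Real.exp 2 * h.dv (h.pd y) ξ := by
    refine le_trans (le_of_eq ?_) (mul_le_mul_of_nonneg_left e2 (Real.exp_pos 2).le)
    rw [← Real.exp_add]
    congr 1
    ring
  have h9 := H _ _ _ _ (e1.trans h8) (le_mul_of_one_le_left (h.dv_nonneg _ _)
    (Real.one_le_exp (by norm_num : (0 : ℝ) ≤ 2)))
  have h10 : h.co (h.a (-i)) (κ⁻¹ • ξ) ≤
      Real.log (C * (Real.exp (2 * τ) * Real.exp 2 + Real.exp 2)) +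
        (i + -(h.rr y + -h.co y⁻¹ ξ)) := by
    rw [← Real.exp_le_exp, Real.exp_add, Real.exp_log (by positivity), mul_assoc]
    refine (H' (-i) (κ⁻¹ • ξ)).trans (mul_le_mul_of_nonneg_left ?_ hC.le)
    rw [neg_neg, h3, Real.exp_add i]
    have h11 : Real.exp (-i) = Real.exp i * Real.exp (-(2 * i)) := by
      rw [← Real.exp_add]
      congr 1
      ring
    have h12 := mul_le_of_le_one_right (Real.exp_pos (-i)).le (h.dv_le_one h.y1 (κ⁻¹ • ξ))
    have h13 := mul_le_mul_of_nonneg_left h8 (Real.exp_pos i).le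
    have h14 := mul_le_mul_of_nonneg_left h9 (Real.exp_pos i).le
    have h15 := mul_le_mul_of_nonneg_left h6 (show 0 ≤ (Real.exp (2 * τ) * Real.exp 2 +
      Real.exp 2) * Real.exp i by positivity)
    nlinarith
  have h11 := h.co_mul (x⁻¹ * y) y⁻¹ ξ
  rw [mul_inv_cancel_right] at h11
  have h12 := (abs_le.1 (h.abs_co_le (x⁻¹ * y) (y⁻¹ • ξ))).1
  rw [inv_inv, h5] at h4
  rw [h.co_mul, smul_inv_smul, h4]
  linarith [le_max_right (2 * (R + 2))
    (Real.log (C * (Real.exp (2 * τ) * Real.exp 2 + Real.exp 2)) + R + 2)]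

variable [IsTopologicalGroup G] [SecondCountableTopology G] [MeasurableSpace G] [BorelSpace G]

theorem meas_dv (y : h.Y) (x : ℝ) : MeasurableSet {y' | h.dv y y' ≤ x} :=
  (isClosed_le (h.continuous_dv.comp (Continuous.prodMk_right y)) continuous_const).measurableSet

/-- **packing** -/
theorem pack (L : ℝ) (hL : 0 ≤ L) : ∃ A : ℝ, 0 ≤ A ∧ ∀ j : ℝ, 0 ≤ j → ∀ (S : Finset h.Y) (η : h.Y),
    Sep h j S → (∀ y ∈ S, h.dv η y ≤ Real.exp (-(2 * (j - L)))) → (S.card : ℝ) ≤ A := by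
  obtain ⟨τ, hτ, H⟩ := dv_tri' h
  obtain ⟨C, hC⟩ := h.νY_ball_le
  obtain ⟨C', hC'⟩ := h.le_νY_ball
  refine ⟨Real.exp (C + C' + h.Q * (L + 2 * τ)), (Real.exp_pos _).le, fun j hj S η hS e => ?_⟩
  have h1 := measure_biUnion_finset (μ := h.νY) (s := S)
    (f := fun y => {y' | h.dv y y' ≤ Real.exp (-(2 * (j + τ)))}) (fun y hy y' hy' hne =>
      Set.disjoint_left.2 fun z hz hz' => by
        have h2 := H y z y' _ hz (by rw [h.dv_comm]; exact hz')
        rw [← Real.exp_add, show 2 * τ + -(2 * (j + τ)) = -(2 * j) by ring] at h2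
        exact absurd (hS y hy y' hy' hne) (not_lt.2 h2)) fun y _ => meas_dv h y _
  have h2 : h.νY (⋃ y ∈ S, {y' | h.dv y y' ≤ Real.exp (-(2 * (j + τ)))}) ≤
      eo (C - h.Q * (j - L - τ)) := by
    refine (measure_mono (Set.iUnion₂_subset fun y hy z hz => ?_)).trans (hC η _)
    have h3 := H η y z _ (e y hy) ((show h.dv y z ≤ _ from hz).trans
      (Real.exp_le_exp.2 (by linarith)))
    rwa [← Real.exp_add, show 2 * τ + -(2 * (j - L)) = -(2 * (j - L - τ)) by ring] at h3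
  have h3 := Finset.card_nsmul_le_sum S _ _ fun y _ => hC' y (j + τ) (by linarith)
  rw [← h1, nsmul_eq_mul] at h3
  have h4 := le_mul_eo (h3.trans h2)
  rw [← eo_add, ← ENNReal.ofReal_natCast] at h4
  refine ((ENNReal.ofReal_le_ofReal_iff (Real.exp_pos _).le).1 h4).trans (le_of_eq ?_)
  congr 1
  ring

/-- **nets** -/
theorem net (j : ℝ) (hj : 0 ≤ j) :
    ∃ S : Finset h.Y, Sep h j S ∧ ∀ y, ∃ y' ∈ S, h.dv y' y ≤ Real.exp (-(2 * j)) := by
  classical
  by_contra hc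
  obtain ⟨A, -, hA⟩ := pack h j hj
  have key : ∀ k : ℕ, ∃ S : Finset h.Y, Sep h j S ∧ S.card = k := fun k => by
    induction k with
    | zero => exact ⟨∅, fun y hy => absurd hy (Finset.notMem_empty y), rfl⟩
    | succ k ih =>
      obtain ⟨S, hS, e⟩ := ih
      obtain ⟨y, hy⟩ : ∃ y, ∀ y' ∈ S, Real.exp (-(2 * j)) < h.dv y' y := by
        by_contra h1
        refine hc ⟨S, hS, fun y => ?_⟩
        by_contra h2
        exact h1 ⟨y, fun y' hy' => not_le.1 fun h3 => h2 ⟨y', hy', h3⟩⟩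
      have hy' : y ∉ S := fun h1 => by
        have := hy y h1
        rw [h.dv_self] at this
        exact absurd this (not_lt.2 (Real.exp_pos _).le)
      refine ⟨insert y S, fun a ha b hb hab => ?_, by rw [Finset.card_insert_of_notMem hy', e]⟩
      rcases Finset.mem_insert.1 ha with ha' | ha' <;> rcases Finset.mem_insert.1 hb with hb' | hb'
      · exact absurd (ha'.trans hb'.symm) hab
      · rw [h.dv_comm, ha']; exact hy b hb'
      · rw [hb']; exact hy a ha'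
      · exact hS a ha' b hb' hab
  obtain ⟨k, hk⟩ := exists_nat_gt A
  obtain ⟨S, hS, e⟩ := key k
  have := hA j hj S h.y0 hS fun y _ => by
    rw [sub_self, mul_zero, neg_zero, Real.exp_zero]; exact h.dv_le_one _ _
  rw [e] at this
  linarith

end Vale.Agent.P092RL
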