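import Vale.Agent.P092RA.Defs
import Vale.Agent.P092RG.Pos

/-!
P092, rank one (helper26): tame families of functions on the boundary.
-/

set_option linter.all false

open MeasureTheory Filter Topology
open scoped InnerProductSpace ContDiff ENNReal Matrix

namespace Vale.Agent.P092RL

open Vale.Agent.P092.H793.Re Vale.Agent.P092RG Vale.Agent.P092RA

variable {n : ℕ} {G : Type} [Group G] [TopologicalSpace G]
variable {ρ : G →* SLn n} {w : Fin n → ℝ}

/-- a family of functions is tame when it consists of one smooth function of uniformly bounded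
affine functionals of the linear model -/
def Tame (h : R1 ρ w) {I E : Type} [NormedAddCommGroup E] [NormedSpace ℝ E]
    (F : I → h.Y → E) : Prop :=
  ∃ (ι : Type) (_ : Fintype ι) (Φ : (ι → ℝ) → E) (Λ : ℝ), ContDiff ℝ ∞ Φ ∧ ∀ p,
    ∃ (a : ι → ℝ) (l : ι → EE n), (∀ i, |a i| ≤ Λ) ∧ (∀ i, ‖l i‖ ≤ Λ) ∧
      ∀ ξ, F p ξ = Φ fun i => a i + ⟪l i, du h ξ⟫_ℝ

namespace Tame

variable {h : R1 ρ w} {I J E E' : Type} [NormedAddCommGroup E] [NormedSpace ℝ E]
  [NormedAddCommGroup E'] [NormedSpace ℝ E'] {F : I → h.Y → E} {F' : I → h.Y → E'}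

theorem sub (hF : Tame h F) {F' : J → h.Y → E} (e : ∀ q, ∃ p, ∀ ξ, F' q ξ = F p ξ) :
    Tame h F' := by
  obtain ⟨ι, _, Φ, Λ, hΦ, H⟩ := hF
  refine ⟨ι, inferInstance, Φ, Λ, hΦ, fun q => ?_⟩
  obtain ⟨p, hp⟩ := e q
  obtain ⟨a, l, ha, hl, e⟩ := H p
  exact ⟨a, l, ha, hl, fun ξ => (hp ξ).trans (e ξ)⟩

theorem re (hF : Tame h F) (r : J → I) : Tame h fun q => F (r q) :=
  hF.sub fun q => ⟨r q, fun _ => rfl⟩

theorem congr (hF : Tame h F) {F' : I → h.Y → E} (e : ∀ p ξ, F' p ξ = F p ξ) : Tame h F' :=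
  hF.sub fun q => ⟨q, e q⟩

theorem aff {a : I → ℝ} {l : I → EE n} {Λ : ℝ} (ha : ∀ p, |a p| ≤ Λ) (hl : ∀ p, ‖l p‖ ≤ Λ) :
    Tame h fun p ξ => a p + ⟪l p, du h ξ⟫_ℝ :=
  ⟨Unit, inferInstance, fun x => x (), Λ, contDiff_apply ℝ ℝ (), fun p =>
    ⟨fun _ => a p, fun _ => l p, fun _ => ha p, fun _ => hl p, fun _ => rfl⟩⟩

theorem lin {l : I → EE n} {Λ : ℝ} (hl : ∀ p, ‖l p‖ ≤ Λ) :
    Tame h fun p ξ => ⟪l p, du h ξ⟫_ℝ :=
  (aff (a := fun _ => 0) (fun p => by rw [abs_zero]; exact (norm_nonneg _).trans (hl p))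
    hl).congr fun p ξ => (zero_add _).symm

theorem cst {a : I → ℝ} {Λ : ℝ} (ha : ∀ p, |a p| ≤ Λ) : Tame h fun p (_ : h.Y) => a p :=
  (aff (l := fun _ => 0) ha fun p => by
    rw [norm_zero]; exact (abs_nonneg _).trans (ha p)).congr fun p ξ => by
      rw [inner_zero_left, add_zero]

theorem comp (hF : Tame h F) {Ψ : E → E'} (hΨ : ContDiff ℝ ∞ Ψ) :
    Tame h fun p ξ => Ψ (F p ξ) := by
  obtain ⟨ι, _, Φ, Λ, hΦ, H⟩ := hF
  refine ⟨ι, inferInstance, fun x => Ψ (Φ x), Λ, hΨ.comp hΦ, fun p => ?_⟩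
  obtain ⟨a, l, ha, hl, e⟩ := H p
  exact ⟨a, l, ha, hl, fun ξ => congrArg Ψ (e ξ)⟩

theorem prod (hF : Tame h F) (hF' : Tame h F') : Tame h fun p ξ => (F p ξ, F' p ξ) := by
  obtain ⟨ι, _, Φ, Λ, hΦ, H⟩ := hF
  obtain ⟨ι', _, Φ', Λ', hΦ', H'⟩ := hF'
  refine ⟨ι ⊕ ι', inferInstance, fun x => (Φ fun i => x (Sum.inl i), Φ' fun i => x (Sum.inr i)),
    max Λ Λ', (hΦ.comp (contDiff_pi.2 fun i => contDiff_apply ℝ ℝ _)).prodMk
      (hΦ'.comp (contDiff_pi.2 fun i => contDiff_apply ℝ ℝ _)), fun p => ?_⟩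
  obtain ⟨a, l, ha, hl, e⟩ := H p
  obtain ⟨a', l', ha', hl', e'⟩ := H' p
  refine ⟨Sum.elim a a', Sum.elim l l', ?_, ?_, fun ξ => Prod.ext (e ξ) (e' ξ)⟩
  · rintro (i | i)
    · exact (ha i).trans (le_max_left _ _)
    · exact (ha' i).trans (le_max_right _ _)
  · rintro (i | i)
    · exact (hl i).trans (le_max_left _ _)
    · exact (hl' i).trans (le_max_right _ _)

theorem pi {κ : Type} [Fintype κ] {F : κ → I → h.Y → E} (hF : ∀ k, Tame h (F k)) :
    Tame h fun p ξ k => F k p ξ := by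
  choose ι fι Φ Λ hΦ H using hF
  choose a l ha hl e using H
  obtain ⟨B, hB⟩ := (Set.finite_range Λ).bddAbove
  refine ⟨Σ k, ι k, inferInstance, fun x k => Φ k fun i => x ⟨k, i⟩, B, contDiff_pi.2 fun k =>
    (hΦ k).comp (contDiff_pi.2 fun i => contDiff_apply ℝ ℝ _), fun p =>
    ⟨fun i => a i.1 p i.2, fun i => l i.1 p i.2, fun i => (ha _ _ _).trans (hB ⟨_, rfl⟩),
      fun i => (hl _ _ _).trans (hB ⟨_, rfl⟩), fun ξ => funext fun k => e k p ξ⟩⟩

theorem add {F' : I → h.Y → E} (hF : Tame h F) (hF' : Tame h F') :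
    Tame h fun p ξ => F p ξ + F' p ξ :=
  (hF.prod hF').comp (Ψ := fun x => x.1 + x.2) (contDiff_fst.add contDiff_snd)

theorem sub' {F' : I → h.Y → E} (hF : Tame h F) (hF' : Tame h F') :
    Tame h fun p ξ => F p ξ - F' p ξ :=
  (hF.prod hF').comp (Ψ := fun x => x.1 - x.2) (contDiff_fst.sub contDiff_snd)

theorem mul {A : Type} [NormedRing A] [NormedAlgebra ℝ A] {F F' : I → h.Y → A} (hF : Tame h F)
    (hF' : Tame h F') : Tame h fun p ξ => F p ξ * F' p ξ :=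
  (hF.prod hF').comp (Ψ := fun x => x.1 * x.2) (contDiff_fst.mul contDiff_snd)

theorem ofReal {F : I → h.Y → ℝ} (hF : Tame h F) : Tame h fun p ξ => (F p ξ : ℂ) :=
  hF.comp (Ψ := fun x : ℝ => (x : ℂ)) Complex.ofRealCLM.contDiff

theorem exp {F : I → h.Y → ℝ} (hF : Tame h F) : Tame h fun p ξ => Real.exp (F p ξ) :=
  hF.comp Real.contDiff_exp

theorem neg (hF : Tame h F) : Tame h fun p ξ => -F p ξ := hF.comp contDiff_neg

theorem cstC {c : I → ℂ} {Λ : ℝ} (hc : ∀ p, ‖c p‖ ≤ Λ) : Tame h fun p (_ : h.Y) => c p :=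
  (((cst (h := h) fun p => (Complex.abs_re_le_norm _).trans (hc p)).ofReal).add
    ((((cst (h := h) fun p => (Complex.abs_im_le_norm _).trans (hc p)).ofReal).comp
      (Ψ := fun z : ℂ => z * Complex.I) (contDiff_id.mul contDiff_const)))).congr
    fun p ξ => (Complex.re_add_im _).symm

theorem bdd (hF : Tame h F) : ∃ B : ℝ, 0 ≤ B ∧ ∀ p ξ, ‖F p ξ‖ ≤ B := by
  obtain ⟨ι, _, Φ, Λ, hΦ, H⟩ := hF
  obtain ⟨B, hB⟩ := (isCompact_closedBall (0 : ι → ℝ) (2 * |Λ|)).exists_bound_of_continuousOn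
    hΦ.continuous.continuousOn
  refine ⟨max B 0, le_max_right _ _, fun p ξ => ?_⟩
  obtain ⟨a, l, ha, hl, e⟩ := H p
  rw [e ξ]
  refine (hB _ (mem_closedBall_zero_iff.2 ((pi_norm_le_iff_of_nonneg (by positivity)).2
    fun i => ?_))).trans (le_max_left _ _)
  have h1 := abs_real_inner_le_norm (l i) (du h ξ)
  have h2 := mul_le_of_le_one_right (norm_nonneg (l i)) (norm_du_le h ξ)
  have h3 := abs_add_le (a i) ⟪l i, du h ξ⟫_ℝ
  rw [Real.norm_eq_abs]
  linarith [ha i, hl i, le_abs_self Λ]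

end Tame

theorem exists_log {δ : ℝ} (hδ : 0 < δ) :
    ∃ L : ℝ → ℝ, ContDiff ℝ ∞ L ∧ ∀ s, δ ≤ s → L s = Real.log s := by
  refine ⟨fun s => Real.smoothTransition ((s - δ / 2) / (δ / 2)) * Real.log s,
    contDiff_iff_contDiffAt.2 fun s => ?_, fun s hs => ?_⟩
  · by_cases hs : 0 < s
    · exact (Real.smoothTransition.contDiff.comp
        ((contDiff_id.sub contDiff_const).div_const _)).contDiffAt.mul
        (Real.contDiffAt_log.2 hs.ne')
    · refine (contDiffAt_const (c := (0 : ℝ))).congr_of_eventuallyEq ?_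
      filter_upwards [Iio_mem_nhds (show s < δ / 2 by linarith [not_lt.1 hs])] with x hx
      rw [Real.smoothTransition.zero_of_nonpos (div_nonpos_of_nonpos_of_nonneg
        (by linarith [Set.mem_Iio.1 hx]) (by linarith)), zero_mul]
  · show _ * _ = _
    rw [Real.smoothTransition.one_of_one_le ((one_le_div (by linarith)).2 (by linarith)), one_mul]

/-- a smooth inverse -/
theorem exists_inv {δ : ℝ} (hδ : 0 < δ) :
    ∃ L : ℝ → ℝ, ContDiff ℝ ∞ L ∧ ∀ s, δ ≤ s → L s = s⁻¹ := by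
  obtain ⟨L, hL, e⟩ := exists_log hδ
  exact ⟨fun s => Real.exp (-L s), Real.contDiff_exp.comp hL.neg, fun s hs => by
    show Real.exp (-L s) = _
    rw [e s hs, Real.exp_neg, Real.exp_log (hδ.trans_le hs)]⟩

namespace Tame

variable {h : R1 ρ w} {I J E : Type} [NormedAddCommGroup E] [NormedSpace ℝ E]

theorem log {F : I → h.Y → ℝ} (hF : Tame h F) {δ : ℝ} (hδ : 0 < δ) (e : ∀ p ξ, δ ≤ F p ξ) :
    Tame h fun p ξ => Real.log (F p ξ) := by
  obtain ⟨L, hL, e'⟩ := exists_log hδ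
  exact (hF.comp hL).congr fun p ξ => (e' _ (e p ξ)).symm

theorem be (y : I → G) : Tame h fun p ξ => be h (y p) ξ := by
  choose l hl e using exists_be h
  exact (lin fun p => hl (y p)).congr fun p ξ => e _ _

theorem co {d : I → G} {R : ℝ} (hd : ∀ p, h.rr (d p) ≤ R) : Tame h fun p ξ => h.co (d p) ξ := by
  have hl := h.lam_pos
  have h1 : Tame h fun p ξ => bo h (d p) ξ := by
    refine (((be d).log (Real.exp_pos (2 * h.lam * (-(2 * R)))) fun p ξ =>
      Real.exp_le_exp.2 (mul_le_mul_of_nonneg_left ?_ (by positivity))).comp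
      (Ψ := fun x => x / (2 * h.lam)) (contDiff_id.div_const _)).congr fun p ξ => ?_
    · have := (abs_le.1 (h.abs_co_le (d p) ξ)).1
      unfold bo
      linarith [hd p]
    · unfold P092RA.be
      rw [Real.log_exp]
      field_simp
  refine (h1.add (cst (Λ := R) (a := fun p => h.rr (d p)) fun p => by
    rw [abs_of_nonneg (h.rr_nonneg _)]; exact hd p)).congr fun p ξ => ?_
  unfold bo
  ring

theorem du_smul {d : I → G} {R : ℝ} (hd : ∀ p, h.rr (d p) ≤ R) {l : I → EE n} {Λ : ℝ}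
    (hl : ∀ p, ‖l p‖ ≤ Λ) : Tame h fun p ξ => ⟪l p, du h (d p • ξ)⟫_ℝ := by
  have hc : Continuous fun q : G × EE n => vec ((ρ q.1).1ᵀ * mat q.2 * (ρ q.1).1) := by
    have h1 := h.continuous_val
    have h2 : Continuous (mat : EE n → Mat n) := by
      unfold mat
      fun_prop
    exact continuous_vec.comp (((h1.comp continuous_fst).matrix_transpose.matrix_mul
      (h2.comp continuous_snd)).matrix_mul (h1.comp continuous_fst))
  obtain ⟨B, hB⟩ := ((h.isCompact_ball R).prod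
    (isCompact_closedBall (0 : EE n) Λ)).exists_bound_of_continuousOn hc.continuousOn
  refine ((((co hd).comp (Ψ := fun x => -(2 * h.lam * x))
    (contDiff_const.mul contDiff_id).neg).exp).mul (lin (Λ := B)
      (l := fun p => vec ((ρ (d p)).1ᵀ * mat (l p) * (ρ (d p)).1)) fun p =>
        hB (d p, l p) ⟨hd p, mem_closedBall_zero_iff.2 (hl p)⟩)).congr fun p ξ => ?_
  have e := dU_smul h (d p) ξ
  rw [du_apply, du_apply, inner_vec, ip_mul_right, ip_mul_left, Matrix.transpose_transpose,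
    ← Matrix.mul_assoc, ← e, ip_smul_right, ← mul_assoc, ← Real.exp_add, neg_add_cancel,
    Real.exp_zero, one_mul, ← inner_vec, vec_mat]

theorem smul {F : I → h.Y → E} (hF : Tame h F) {d : I → G} {R : ℝ} (hd : ∀ p, h.rr (d p) ≤ R) :
    Tame h fun p ξ => F p (d p • ξ) := by
  obtain ⟨ι, _, Φ, Λ, hΦ, H⟩ := hF
  choose a l ha hl e using H
  exact ((pi fun i => (cst fun p => ha p i).add (du_smul hd fun p => hl p i)).comp hΦ).congr
    fun p ξ => e p _

theorem act {F : I → C(h.Y, ℂ)} (hF : Tame h fun p ξ => F p ξ) {d : I → G} {R : ℝ}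
    (hd : ∀ p, h.rr (d p) ≤ R) {t : I → ℝ} {T : ℝ} (ht : ∀ p, |t p| ≤ T) :
    Tame h fun p ξ => act h (t p) (d p) (F p) ξ := by
  have hd' : ∀ p, h.rr (d p)⁻¹ ≤ R := fun p => by rw [h.rr_inv]; exact hd p
  exact (((cst ht).mul (co hd')).neg.exp.ofReal.mul (hF.smul hd')).congr fun p ξ => rfl

/-- **ATOM** for a tame family -/
theorem atom [IsTopologicalGroup G] [SecondCountableTopology G] [MeasurableSpace G]
    [BorelSpace G] {F : I → C(h.Y, ℂ)} (hF : Tame h fun p ξ => F p ξ) : ∃ C : ℝ, 0 ≤ C ∧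
    ∀ (t : ℝ) (v : G) (Z : SN h.Y) (p : I),
      Z.p (P092RA.act h t v (sh h v * F p)) ≤ C * Real.sqrt (qw h t v Z) := by
  obtain ⟨ι, _, Φ, Λ, hΦ, H⟩ := hF
  let e := Fintype.equivFin ι
  obtain ⟨C, hC, hA⟩ := wall_atom h (Φ := fun x => Φ fun i => x (e i))
    (hΦ.comp (contDiff_pi.2 fun i => contDiff_apply ℝ ℝ _)) Λ
  refine ⟨C, hC, fun t v Z p => ?_⟩
  obtain ⟨a, l, ha, hl, e'⟩ := H p
  exact hA t v Z (fun j => a (e.symm j)) (fun j => l (e.symm j)) (fun j => ha _) (fun j => hl _) _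
    fun ξ => by simpa only [Equiv.symm_apply_apply] using e' ξ

end Tame

end Vale.Agent.P092RL
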