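import Vale.Agent.P092RL.Tame

/-!
P092, rank one (helper26): the wall lemma.
-/

set_option linter.all false

open MeasureTheory Filter Topology
open scoped InnerProductSpace ContDiff ENNReal

namespace Vale.Agent.P092RL

open Vale.Agent.P092.H793.Re Vale.Agent.P092RG Vale.Agent.P092RA

variable {n : ℕ} {G : Type} [Group G] [TopologicalSpace G]
variable {ρ : G →* SLn n} {w : Fin n → ℝ} (h : R1 ρ w)
include h

theorem near_K (D : ℝ) : ∃ R : ℝ, ∀ κ ∈ h.K, ∀ κ' ∈ h.K, ∀ s t : ℝ, 0 ≤ s → 0 ≤ t →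
    |t - s| ≤ 1 → h.dv (κ : h.Y) (κ' : h.Y) ≤ D * Real.exp (-(2 * s)) →
      h.rr ((κ * h.a s)⁻¹ * (κ' * h.a t)) ≤ R := by
  obtain ⟨C, hC, H⟩ := h.cosines
  refine ⟨Real.log (C * (Real.exp 1 * |D| + Real.exp 1 + Real.exp 1 + 1)),
    fun κ hκ κ' hκ' s t hs ht hst e => ?_⟩
  have e1 : (κ * h.a s)⁻¹ * (κ' * h.a t) = h.a (-s) * (κ⁻¹ * κ') * h.a t := by
    rw [h.a_neg]; group
  obtain ⟨h1, h2⟩ := abs_le.1 hst
  rw [e1, Real.le_log_iff_exp_le (by positivity)]
  refine (H _ (h.K.mul_mem (h.K.inv_mem hκ) hκ') s t).trans (mul_le_mul_of_nonneg_left ?_ hC.le)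
  rw [h.dv_K hκ hκ'] at e
  have h3 : Real.exp (s + t) * h.bd (κ⁻¹ * κ') ≤ Real.exp 1 * |D| := by
    refine (mul_le_mul_of_nonneg_left (e.trans (mul_le_mul_of_nonneg_right (le_abs_self D)
      (Real.exp_pos _).le)) (Real.exp_pos _).le).trans ?_
    rw [mul_left_comm, ← Real.exp_add, mul_comm]
    exact mul_le_mul_of_nonneg_right (Real.exp_le_exp.2 (by linarith)) (abs_nonneg D)
  have h4 : Real.exp (t - s) ≤ Real.exp 1 := Real.exp_le_exp.2 h2
  have h5 : Real.exp (s - t) ≤ Real.exp 1 := Real.exp_le_exp.2 (by linarith)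
  have h6 : Real.exp (-s - t) ≤ 1 := Real.exp_le_one_iff.2 (by linarith)
  linarith

theorem near_pd (D : ℝ) : ∃ R : ℝ, ∀ b v : G, |h.rr v - h.rr b| ≤ 1 →
    h.dv (h.pd b) (h.pd v) ≤ D * Real.exp (-(2 * h.rr b)) → h.rr (b⁻¹ * v) ≤ R := by
  obtain ⟨R, H⟩ := near_K h D
  refine ⟨R, fun b v e1 e2 => ?_⟩
  obtain ⟨κ, hκ, κ', hκ', e3, e4⟩ := h.kak_pd b
  obtain ⟨k, hk, k', hk', e5, e6⟩ := h.kak_pd v
  rw [e4, e6] at e2
  have := H κ hκ k hk _ _ (h.rr_nonneg b) (h.rr_nonneg v) e1 e2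
  have e7 : b⁻¹ * v = κ'⁻¹ * ((κ * h.a (h.rr b))⁻¹ * (k * h.a (h.rr v))) * k' := by
    conv_lhs => rw [e3, e5]
    group
  rwa [e7, h.rr_mul_K _ hk', h.rr_K_mul (h.K.inv_mem hκ')]

theorem dv_pd_bo (g : G) (ζ : h.Y) :
    h.dv (h.pd g) (g • ζ) ≤ Real.exp (-bo h g ζ) * Real.exp (-(2 * h.rr g)) := by
  refine (h.dv_pd g ζ).trans (le_of_eq ?_)
  rw [← Real.exp_add]
  unfold bo
  congr 1
  ring

/-- two points at the same distance whose shadows meet are close -/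
theorem near_sh (C : ℝ) : ∃ R : ℝ, ∀ (b v : G) (ξ : h.Y), |h.rr v - h.rr b| ≤ 1 →
    -C ≤ bo h b (b⁻¹ • ξ) → -C ≤ bo h v (v⁻¹ • ξ) → h.rr (b⁻¹ * v) ≤ R := by
  obtain ⟨T, hT, H⟩ := h.dv_tri
  obtain ⟨R, hR⟩ := near_pd h (T * (Real.exp C + Real.exp C * Real.exp 2))
  refine ⟨R, fun b v ξ e1 e2 e3 => hR b v e1 ((H _ ξ _).trans ?_)⟩
  have h1 := dv_pd_bo h b (b⁻¹ • ξ)
  have h2 := dv_pd_bo h v (v⁻¹ • ξ)
  rw [smul_inv_smul] at h1 h2
  rw [mul_assoc, h.dv_comm ξ]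
  refine mul_le_mul_of_nonneg_left ?_ hT.le
  rw [add_mul, mul_assoc, ← Real.exp_add 2]
  obtain ⟨h3, h4⟩ := abs_le.1 e1
  exact add_le_add (h1.trans (mul_le_mul_of_nonneg_right (Real.exp_le_exp.2 (by linarith))
    (Real.exp_pos _).le)) (h2.trans (mul_le_mul (Real.exp_le_exp.2 (by linarith))
      (Real.exp_le_exp.2 (by linarith)) (Real.exp_pos _).le (Real.exp_pos _).le))

/-- the cutoff of the shadow of `v` -/
noncomputable def sg (v : G) (ξ : h.Y) : ℝ := ps h.lam (be h v (v⁻¹ • ξ))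

theorem continuous_sg : Continuous fun q : G × h.Y => sg h q.1 q.2 := by
  haveI := topGroup h.rs.emb
  exact (continuous_ps _).comp ((continuous_be h).comp
    (f := fun q : G × h.Y => (q.1, q.1⁻¹ • q.2)) (by fun_prop))

theorem sg_K {κ : G} (hκ : κ ∈ h.K) (v : G) (ξ : h.Y) : sg h (κ * v) (κ • ξ) = sg h v ξ := by
  unfold sg be bo
  rw [mul_inv_rev, mul_smul, inv_smul_smul, h.co_mul, h.co_of_K hκ, zero_add, h.rr_K_mul hκ]

theorem act_sh (t : ℝ) (v b : G) (f : C(h.Y, ℂ)) (ξ : h.Y) :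
    act h t v (sh h v * act h t (v⁻¹ * b) f) ξ = (sg h v ξ : ℂ) * act h t b f ξ := by
  have e : act h t b f = act h t v (act h t (v⁻¹ * b) f) := by
    rw [← act_mul, mul_inv_cancel_left]
  rw [e, act_apply, act_apply h t v, ContinuousMap.mul_apply, sh_apply, mul_left_comm]
  rfl

theorem isCompact_near (b : G) (R : ℝ) : IsCompact {v | h.rr (b⁻¹ * v) ≤ R} := by
  haveI := topGroup h.rs.emb
  exact (Homeomorph.mulLeft b⁻¹).isCompact_preimage.2 (h.isCompact_ball R)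

theorem isCompact_shell (s : ℝ) : IsCompact {v | |h.rr v - s| ≤ 1} := by
  have hr := h.continuous_rr
  refine (h.isCompact_ball (s + 1)).of_isClosed_subset
    (isClosed_le (by fun_prop) continuous_const) fun v hv => ?_
  have := (abs_le.1 (show |h.rr v - s| ≤ 1 from hv)).2
  show h.rr v ≤ s + 1
  linarith

variable [IsTopologicalGroup G] [SecondCountableTopology G] [MeasurableSpace G] [BorelSpace G]
  [LocallyCompactSpace G] [T2Space G] (μ : Measure G) [μ.IsHaarMeasure]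

theorem intOn_sg (ξ : h.Y) {S : Set G} (hS : IsCompact S) :
    IntegrableOn (fun v => sg h v ξ) S μ :=
  ((continuous_sg h).comp (Continuous.prodMk_left ξ)).continuousOn.integrableOn_compact hS

/-- **the partition of unity by the shadows of a shell** -/
theorem shell_sum : ∃ c₀ : ℝ, 0 < c₀ ∧ ∀ s : ℝ, 0 ≤ s → ∃ c : ℝ, c₀ ≤ c ∧
    ∀ ξ, ∫ v in {v | |h.rr v - s| ≤ 1}, sg h v ξ ∂μ = c := by
  have hm : μ {v | h.rr v ≤ 1 / 2} ≠ 0 := (Measure.measure_pos_of_mem_nhds μ (x := 1)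
    ((h.continuous_rr.tendsto 1).eventually_le_const (by rw [h.rr_one]; norm_num))).ne'
  refine ⟨μ.real {v | h.rr v ≤ 1 / 2}, ENNReal.toReal_pos hm
    (h.isCompact_ball _).measure_lt_top.ne, fun s hs => ⟨∫ v in {v | |h.rr v - s| ≤ 1},
      sg h v ((1 : G) : h.Y) ∂μ, ?_, fun ξ => ?_⟩⟩
  · have hsub : {v | h.rr ((h.a s)⁻¹ * v) ≤ 1 / 2} ⊆ {v | |h.rr v - s| ≤ 1} := fun v hv => by
      have := h.abs_rr_mul_sub' (h.a s) ((h.a s)⁻¹ * v)
      rw [mul_inv_cancel_left, h.rr_a, abs_of_nonneg hs] at this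
      exact this.trans ((show h.rr ((h.a s)⁻¹ * v) ≤ 1 / 2 from hv).trans (by norm_num))
    refine le_trans (le_of_eq ?_) (setIntegral_mono_set (intOn_sg h μ _ (isCompact_shell h s))
      (Eventually.of_forall fun v => ps_nonneg _ _) hsub.eventuallyLE)
    rw [setIntegral_congr_fun (g := fun _ => (1 : ℝ)) (isCompact_near h _ _).measurableSet,
      setIntegral_const, smul_eq_mul, mul_one]
    · exact congrArg ENNReal.toReal (measure_preimage_mul μ (h.a s)⁻¹ {v | h.rr v ≤ 1 / 2}).symm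
    · intro v hv
      have hv' : h.rr ((h.a s)⁻¹ * v) ≤ 1 / 2 := hv
      refine ps_be_one h ?_
      have h1 := h.abs_rr_mul_sub' (h.a s) ((h.a s)⁻¹ * v)
      rw [mul_inv_cancel_left, h.rr_a, abs_of_nonneg hs] at h1
      have h2 := h.co_inv v⁻¹ ((1 : G) : h.Y)
      rw [inv_inv, h.co_K _ h.K.one_mem, mul_one] at h2
      have h3 := h.hs_mul_le (v⁻¹ * h.a s) (h.a (-s))
      rw [mul_assoc, ← h.a_add, add_neg_cancel, h.a_zero, mul_one, h.hs_a, ← h.rr_inv,
        mul_inv_rev, inv_inv] at h3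
      unfold bo
      linarith [(abs_le.1 h1).2]
  · obtain ⟨κ, hκ, rfl⟩ := h.exists_K ξ
    have e : (κ : h.Y) = κ • ((1 : G) : h.Y) := by rw [h.smul_mkY, mul_one]
    rw [← integral_indicator (isCompact_shell h s).measurableSet,
      ← integral_indicator (isCompact_shell h s).measurableSet, ← integral_mul_left_eq_self _ κ]
    refine integral_congr_ae (Eventually.of_forall fun v => ?_)
    simp only [Set.indicator, Set.mem_setOf_eq, h.rr_K_mul hκ, e, sg_K h hκ]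

theorem intOn_qw (t : ℝ) (Z : SN h.Y) {S : Set G} (hS : IsCompact S) :
    IntegrableOn (fun v => qw h t v Z) S μ := by
  obtain ⟨R, hR⟩ := h.exists_ball hS
  refine Measure.integrableOn_of_bounded (M := (Z.B * Real.exp (|t| * R)) ^ 2 *
    ∫ η : EE n, wt (MM h) η) hS.measure_lt_top.ne (measurable_qw h t Z).aestronglyMeasurable
    ((ae_restrict_iff' hS.measurableSet).2 (Eventually.of_forall fun v hv => ?_))
  rw [Real.norm_eq_abs, abs_of_nonneg (qw_nonneg h t v Z)]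
  refine (qw_le h t v Z).trans (mul_le_mul_of_nonneg_right (pow_le_pow_left₀
    (mul_nonneg Z.B0 (Real.exp_pos _).le) (mul_le_mul_of_nonneg_left (Real.exp_le_exp.2
      (mul_le_mul_of_nonneg_left (hR v hv) (abs_nonneg t))) Z.B0) 2)
    (integral_nonneg fun η => (wt_pos _ _).le))

theorem intOn_sqrt (t : ℝ) (Z : SN h.Y) {S : Set G} (hS : IsCompact S) :
    IntegrableOn (fun v => Real.sqrt (qw h t v Z)) S μ := by
  haveI : IsFiniteMeasure (μ.restrict S) := isFiniteMeasure_restrict.2 hS.measure_lt_top.ne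
  refine ((intOn_qw h μ t Z hS).add (integrable_const (1 : ℝ))).mono'
    (measurable_qw h t Z).sqrt.aestronglyMeasurable (Eventually.of_forall fun v => ?_)
  rw [Real.norm_eq_abs, abs_of_nonneg (Real.sqrt_nonneg _)]
  have h1 := Real.sq_sqrt (qw_nonneg h t v Z)
  show _ ≤ qw h t v Z + 1
  nlinarith [sq_nonneg (Real.sqrt (qw h t v Z) - 1), Real.sqrt_nonneg (qw h t v Z)]

theorem int_sqrt_le (t : ℝ) (Z : SN h.Y) (b : G) (R : ℝ) :
    ∫ v in {v | h.rr (b⁻¹ * v) ≤ R}, Real.sqrt (qw h t v Z) ∂μ ≤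
      Real.sqrt (μ.real {v | h.rr v ≤ R}) * bb h μ t Z b R := by
  have hS := isCompact_near h b R
  haveI : IsFiniteMeasure (μ.restrict {v | h.rr (b⁻¹ * v) ≤ R}) :=
    isFiniteMeasure_restrict.2 hS.measure_lt_top.ne
  have e : ∀ v, (1 : ℝ) * Real.sqrt (qw h t v Z) ^ 2 = qw h t v Z := fun v => by
    rw [one_mul, Real.sq_sqrt (qw_nonneg h t v Z)]
  have := int_cs (μ := μ.restrict {v | h.rr (b⁻¹ * v) ≤ R}) (k := fun _ => (1 : ℝ))
    (z := fun v => Real.sqrt (qw h t v Z)) (fun _ => zero_le_one) (integrable_const _)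
    (by simp only [e]; exact intOn_qw h μ t Z hS)
    (by simp only [one_mul]; exact intOn_sqrt h μ t Z hS)
  simp only [e, one_mul] at this
  rw [setIntegral_const, smul_eq_mul, mul_one] at this
  refine this.trans (le_of_eq ?_)
  congr 2
  exact congrArg ENNReal.toReal (measure_preimage_mul μ b⁻¹ {v | h.rr v ≤ R})

/-- **THE WALL LEMMA**: a tame function seen from `b` that lives in the shadow of `b` is
controlled by the walls near `b` -/
theorem wall {I : Type} {F : I → C(h.Y, ℂ)} (hF : Tame h fun p ξ => F p ξ) (C₀ : ℝ) :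
    ∃ C R : ℝ, 0 ≤ C ∧ ∀ t : ℝ, |t| ≤ 1 → ∀ (b : G) (Z : SN h.Y) (p : I),
      (∀ ζ, F p ζ ≠ 0 → -C₀ ≤ bo h b ζ) → Z.p (act h t b (F p)) ≤ C * bb h μ t Z b R := by
  obtain ⟨R, hR⟩ := near_sh h (max C₀ 2)
  obtain ⟨c₀, hc₀, hc⟩ := shell_sum h μ
  obtain ⟨C, hC, hA⟩ := Tame.atom (h := h)
    (I := I × {d : G // h.rr d ≤ R} × {t : ℝ // |t| ≤ 1})
    (F := fun q => act h q.2.2.1 q.2.1.1 (F q.1))
    (Tame.act (hF.re Prod.fst) (fun q => q.2.1.2) fun q => q.2.2.2)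
  refine ⟨c₀⁻¹ * (C * Real.sqrt (μ.real {v | h.rr v ≤ R})), R, by positivity,
    fun t ht b Z p hp => ?_⟩
  obtain ⟨c, hcc, hs⟩ := hc (h.rr b) (h.rr_nonneg b)
  have hS := isCompact_shell h (h.rr b)
  have hN := isCompact_near h b R
  have hSN := hS.inter_right hN.isClosed
  have hcont : Continuous fun v : G => act h t v (sh h v * act h t (v⁻¹ * b) (F p)) :=
    (continuous_act h t).comp (f := fun v : G => (v, sh h v * act h t (v⁻¹ * b) (F p)))
      (continuous_id.prodMk ((continuous_sh h).mul ((continuous_act h t).comp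
        (f := fun v : G => (v⁻¹ * b, F p)) (by fun_prop))))
  have hint := hcont.continuousOn.integrableOn_compact (μ := μ) hSN
  have h1 := Z.zi hint (f := (c : ℂ) • act h t b (F p)) fun ξ => by
    simp only [act_sh]
    rw [integral_mul_const, integral_complex_ofReal, ContinuousMap.smul_apply, smul_eq_mul]
    by_cases h0 : F p (b⁻¹ • ξ) = 0
    · rw [act_apply, h0, mul_zero, mul_zero, mul_zero]
    · rw [← hs ξ]
      congr 2
      refine setIntegral_eq_of_subset_of_forall_diff_eq_zero hS.measurableSet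
        Set.inter_subset_left fun v hv => ?_
      by_contra h2
      exact hv.2 ⟨hv.1, hR b v ξ hv.1 ((neg_le_neg (le_max_left _ _)).trans (hp _ h0))
        ((neg_le_neg (le_max_right _ _)).trans (lt_bo h h2).le)⟩
  rw [Z.smul, Complex.norm_real, Real.norm_eq_abs, abs_of_pos (hc₀.trans_le hcc)] at h1
  have h2 : ∫ v in {v | |h.rr v - h.rr b| ≤ 1} ∩ {v | h.rr (b⁻¹ * v) ≤ R},
      Z.p (act h t v (sh h v * act h t (v⁻¹ * b) (F p))) ∂μ ≤
      ∫ v in {v | h.rr (b⁻¹ * v) ≤ R}, C * Real.sqrt (qw h t v Z) ∂μ := by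
    refine (setIntegral_mono_on (Z.integrable hint) ((intOn_sqrt h μ t Z hSN).const_mul C)
      hSN.measurableSet fun v hv => hA t v Z (p, ⟨v⁻¹ * b, ?_⟩, ⟨t, ht⟩)).trans
      (setIntegral_mono_set ((intOn_sqrt h μ t Z hN).const_mul C)
        (Eventually.of_forall fun v => mul_nonneg hC (Real.sqrt_nonneg _))
        Set.inter_subset_right.eventuallyLE)
    rw [← h.rr_inv, mul_inv_rev, inv_inv]
    exact hv.2
  rw [integral_const_mul] at h2
  have h3 := mul_le_mul_of_nonneg_left (int_sqrt_le h μ t Z b R) hC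
  rw [mul_assoc, le_inv_mul_iff₀ hc₀, mul_assoc]
  exact (mul_le_mul_of_nonneg_right hcc (Z.nonneg _)).trans (h1.trans (h2.trans h3))

end Vale.Agent.P092RL
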